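import Mathlib

/-!
A smooth star-shaped contour surrounding a compact convex subset of the plane.
-/

open scoped ComplexConjugate

namespace Vale.Agent.P123

lemma hasDerivAt_max_pow {p : ℕ} (hp : 2 ≤ p) (x : ℝ) :
    HasDerivAt (fun t : ℝ => max t 0 ^ p) ((p : ℝ) * max x 0 ^ (p - 1)) x := by
  rcases lt_trichotomy x 0 with h | h | h
  · rw [max_eq_right h.le, zero_pow (by omega : p - 1 ≠ 0), mul_zero]
    refine (hasDerivAt_const x ((0 : ℝ) ^ p)).congr_of_eventuallyEq ?_
    filter_upwards [eventually_lt_nhds h] with t ht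
    rw [max_eq_right ht.le]
  · subst h
    rw [max_self, zero_pow (by omega : p - 1 ≠ 0), mul_zero, hasDerivAt_iff_isLittleO]
    simp only [max_self, smul_zero, sub_zero, zero_pow (by omega : p ≠ 0)]
    refine (Asymptotics.IsBigO.of_bound 1 (Filter.Eventually.of_forall fun t => ?_)).trans_isLittleO
      (Asymptotics.isLittleO_pow_id (𝕜 := ℝ) (by omega : 1 < p))
    rw [one_mul, norm_pow, norm_pow]
    refine pow_le_pow_left₀ (norm_nonneg _) ?_ p
    rcases le_total t 0 with h | h <;> simp [h]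
  · rw [max_eq_left h.le]
    refine (hasDerivAt_pow p x).congr_of_eventuallyEq ?_
    filter_upwards [eventually_gt_nhds h] with t ht
    rw [max_eq_left ht.le]

lemma exists_halfplane {W : Set ℂ} (hconv : Convex ℝ W) (hclosed : IsClosed W) (h0 : (0 : ℂ) ∈ W)
    {z : ℂ} (hz : z ∉ W) :
    ∃ (a : ℂ) (ρ : ℝ), 0 ≤ ρ ∧ ρ < 1 ∧ (∀ w ∈ W, (conj a * w).re ≤ ρ) ∧ 1 < (conj a * z).re := by
  obtain ⟨f, u, hfu, huz⟩ := geometric_hahn_banach_closed_point hconv hclosed hz
  have hu : 0 < u := by simpa using hfu 0 h0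
  set m := (u + f z) / 2 with hm
  have hm0 : 0 < m := by rw [hm]; linarith
  have hfv : ∀ v : ℂ, (conj (⟨f 1 / m, f Complex.I / m⟩ : ℂ) * v).re = f v / m := by
    intro v
    have hv : v = v.re • (1 : ℂ) + v.im • Complex.I := by apply Complex.ext <;> simp
    have h1 : f v = v.re * f 1 + v.im * f Complex.I := by
      conv_lhs => rw [hv]
      rw [map_add, map_smul, map_smul, smul_eq_mul, smul_eq_mul]
    rw [h1]
    simp
    ring
  refine ⟨⟨f 1 / m, f Complex.I / m⟩, u / m, by positivity, ?_, fun w hw => ?_, ?_⟩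
  · rw [div_lt_one hm0, hm]; linarith
  · rw [hfv, div_le_div_iff_of_pos_right hm0]; exact (hfu w hw).le
  · rw [hfv, one_lt_div hm0, hm]; linarith

/-- Finitely many half-planes cutting out a bounded neighbourhood of `W` inside `U`. -/
lemma exists_halfplanes {W U : Set ℂ} (hconv : Convex ℝ W) (hclosed : IsClosed W)
    (h0 : (0 : ℂ) ∈ W) (R : ℝ) (hR : ∀ w ∈ W, ‖w‖ ≤ R) (hU : IsOpen U) (hWU : W ⊆ U) :
    ∃ (S : Finset ℂ) (ρ : ℝ), 0 ≤ ρ ∧ ρ < 1 ∧ (∀ a ∈ S, ∀ w ∈ W, (conj a * w).re ≤ ρ) ∧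
      (∀ e : ℂ, e ≠ 0 → ∃ a ∈ S, 0 < (conj a * e).re) ∧
      (∀ z : ℂ, (∀ a ∈ S, (conj a * z).re ≤ 1) → z ∈ U) := by
  classical
  have hR0 : 0 ≤ R := (norm_nonneg _).trans (hR 0 h0)
  set δ : ℝ := 1 / (R + 1) with hδ
  have hδ0 : 0 < δ := by positivity
  set ρ₀ : ℝ := R / (R + 1) with hρ₀
  have hρ₀1 : ρ₀ < 1 := by rw [hρ₀, div_lt_one (by linarith)]; linarith
  set B₀ : Set ℂ := Metric.closedBall 0 (2 / δ) with hB₀
  set T : Set ℂ := {a | ∃ ρ : ℝ, 0 ≤ ρ ∧ ρ < 1 ∧ ∀ w ∈ W, (conj a * w).re ≤ ρ} with hT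
  have hbox : ∀ a ∈ ({(δ : ℂ), -(δ : ℂ), (δ : ℂ) * Complex.I, -((δ : ℂ) * Complex.I)} : Finset ℂ),
      a ∈ T := by
    intro a ha
    refine ⟨ρ₀, by positivity, hρ₀1, fun w hw => ?_⟩
    refine (Complex.re_le_norm _).trans ?_
    have hna : ‖a‖ = δ := by
      simp only [Finset.mem_insert, Finset.mem_singleton] at ha
      rcases ha with rfl | rfl | rfl | rfl <;> simp [abs_of_pos hδ0]
    rw [norm_mul, RCLike.norm_conj, hna, hρ₀, hδ, div_mul_eq_mul_div, one_mul]
    exact div_le_div_of_nonneg_right (hR w hw) (by linarith)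
  have hcompact : IsCompact (B₀ ∩ Uᶜ) :=
    (isCompact_closedBall _ _).inter_right hU.isClosed_compl
  obtain ⟨t, ht⟩ := hcompact.elim_finite_subcover (fun a : T => {z : ℂ | 1 < (conj (a : ℂ) * z).re})
    (fun a => isOpen_lt continuous_const
      (Complex.continuous_re.comp (continuous_const.mul continuous_id)))
    (by
      intro z hz
      obtain ⟨a, ρ, h1, h2, h3, h4⟩ := exists_halfplane hconv hclosed h0
        (fun hzW => hz.2 (hWU hzW))
      exact Set.mem_iUnion.2 ⟨⟨a, ρ, h1, h2, h3⟩, h4⟩)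
  set S : Finset ℂ := ({(δ : ℂ), -(δ : ℂ), (δ : ℂ) * Complex.I, -((δ : ℂ) * Complex.I)} : Finset ℂ)
    ∪ t.image Subtype.val with hS
  have hST : ∀ a ∈ S, a ∈ T := by
    intro a ha
    rcases Finset.mem_union.1 ha with h | h
    · exact hbox a h
    · obtain ⟨b, -, rfl⟩ := Finset.mem_image.1 h
      exact b.2
  obtain ⟨ρ, hρ0, hρ1, hρ⟩ : ∃ ρ : ℝ, 0 ≤ ρ ∧ ρ < 1 ∧
      ∀ a ∈ S, ∀ w ∈ W, (conj a * w).re ≤ ρ := by
    clear_value S
    clear hS
    induction S using Finset.induction with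
    | empty => exact ⟨0, le_rfl, one_pos, by simp⟩
    | insert a S ha ih =>
      obtain ⟨r, hr0, hr1, hr⟩ := ih fun b hb => hST b (Finset.mem_insert_of_mem hb)
      obtain ⟨r', hr0', hr1', hr'⟩ := hST a (Finset.mem_insert_self a S)
      refine ⟨max r r', le_max_of_le_left hr0, max_lt hr1 hr1', fun b hb w hw => ?_⟩
      rcases Finset.mem_insert.1 hb with rfl | hb
      · exact (hr' w hw).trans (le_max_right _ _)
      · exact (hr b hb w hw).trans (le_max_left _ _)
  refine ⟨S, ρ, hρ0, hρ1, hρ, fun e he => ?_, fun z hz => ?_⟩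
  · have h : e.re ≠ 0 ∨ e.im ≠ 0 := by
      by_contra hc; push Not at hc; exact he (Complex.ext hc.1 hc.2)
    rcases h with h | h <;> rcases lt_or_gt_of_ne h with h | h
    · exact ⟨-(δ : ℂ), by simp [hS], by simp; exact mul_neg_of_pos_of_neg hδ0 h⟩
    · exact ⟨(δ : ℂ), by simp [hS], by simpa using mul_pos hδ0 h⟩
    · exact ⟨-((δ : ℂ) * Complex.I), by simp [hS], by simp; exact mul_neg_of_pos_of_neg hδ0 h⟩
    · exact ⟨(δ : ℂ) * Complex.I, by simp [hS], by simpa using mul_pos hδ0 h⟩
  · by_contra hzU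
    have h1 := hz (δ : ℂ) (by simp [hS])
    have h2 := hz (-(δ : ℂ)) (by simp [hS])
    have h3 := hz ((δ : ℂ) * Complex.I) (by simp [hS])
    have h4 := hz (-((δ : ℂ) * Complex.I)) (by simp [hS])
    simp at h1 h2 h3 h4
    have hzB : z ∈ B₀ := by
      rw [hB₀, mem_closedBall_zero_iff]
      refine (Complex.norm_le_abs_re_add_abs_im z).trans ?_
      have e1 : |z.re| ≤ 1 / δ := by
        rw [le_div_iff₀ hδ0]
        rcases abs_cases z.re with ⟨h, -⟩ | ⟨h, -⟩ <;> rw [h] <;> linarith
      have e2 : |z.im| ≤ 1 / δ := by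
        rw [le_div_iff₀ hδ0]
        rcases abs_cases z.im with ⟨h, -⟩ | ⟨h, -⟩ <;> rw [h] <;> linarith
      calc |z.re| + |z.im| ≤ 1 / δ + 1 / δ := add_le_add e1 e2
        _ = 2 / δ := by ring
    obtain ⟨a, ha⟩ := Set.mem_iUnion.1 (ht ⟨hzB, hzU⟩)
    obtain ⟨hat, haz⟩ := Set.mem_iUnion.1 ha
    exact absurd (hz a (by simp [hS, hat])) (not_le.2 haz)

/-- The contour. -/
theorem exists_contour {W U : Set ℂ} (hconv : Convex ℝ W) (hclosed : IsClosed W)
    (h0 : (0 : ℂ) ∈ W) (R : ℝ) (hR : ∀ w ∈ W, ‖w‖ ≤ R) (hU : IsOpen U) (hWU : W ⊆ U) :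
    ∃ z z' : ℝ → ℂ, Continuous z' ∧ (∀ θ, HasDerivAt z (z' θ) θ) ∧
      z (2 * Real.pi) = z 0 ∧
      (∫ θ in (0 : ℝ)..2 * Real.pi, z' θ / z θ) = 2 * Real.pi * Complex.I ∧
      ∀ θ, z θ ∈ U ∧ ∀ s ∈ Set.Icc (0 : ℝ) 1, ∀ v ∈ W,
        0 < (conj (-Complex.I * z' θ) * (z θ - (s : ℂ) * v)).re := by
  obtain ⟨S, ρ, hρ0, hρ1, hρ, hpos, hQ⟩ := exists_halfplanes hconv hclosed h0 R hR hU hWU
  obtain ⟨q, hq⟩ : ∃ q : ℝ, q = (1 + ρ) / 2 := ⟨_, rfl⟩
  have hq0 : 0 < q := by linarith
  have hq1 : q < 1 := by linarith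
  obtain ⟨m, hm⟩ : ∃ m : ℕ, ρ * (1 / q + S.card * q ^ (m + 1)) < 1 := by
    have h1 : Filter.Tendsto (fun m : ℕ => ρ * (1 / q + S.card * q ^ (m + 1))) Filter.atTop
        (nhds (ρ * (1 / q + S.card * 0))) :=
      ((((tendsto_pow_atTop_nhds_zero_of_lt_one hq0.le hq1).comp
        (Filter.tendsto_add_atTop_nat 1)).const_mul _).const_add _).const_mul _
    have h2 : ρ * (1 / q + S.card * 0) < 1 := by
      rw [mul_zero, add_zero, mul_one_div, div_lt_one hq0]; linarith
    exact (h1.eventually (gt_mem_nhds h2)).exists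
  obtain ⟨p, hp⟩ : ∃ p : ℕ, p = m + 2 := ⟨_, rfl⟩
  have hp2 : 2 ≤ p := by omega
  have hp1 : p - 1 = m + 1 := by omega
  set e : ℝ → ℂ := fun θ => Complex.exp (θ * Complex.I) with he
  have hed : ∀ θ, HasDerivAt e (Complex.I * e θ) θ := fun θ => by
    have h := ((hasDerivAt_id θ).ofReal_comp.mul_const Complex.I).cexp
    simpa [he, mul_comm] using h
  set G : ℝ → ℝ := fun θ => ∑ a ∈ S, max (conj a * e θ).re 0 ^ p with hG
  set G' : ℝ → ℝ := fun θ =>
    ∑ a ∈ S, (p : ℝ) * max (conj a * e θ).re 0 ^ (p - 1) * (conj a * (Complex.I * e θ)).re with hG'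
  have hGd : ∀ θ, HasDerivAt G (G' θ) θ := by
    intro θ
    refine HasDerivAt.fun_sum fun a _ => ?_
    have h1 : HasDerivAt (fun θ => (conj a * e θ).re) (conj a * (Complex.I * e θ)).re θ := by
      simpa [Function.comp_def] using
        Complex.reCLM.hasFDerivAt.comp_hasDerivAt θ ((hed θ).const_mul (conj a))
    exact (hasDerivAt_max_pow hp2 _).comp θ h1
  have hG0 : ∀ θ, 0 < G θ := by
    intro θ
    obtain ⟨a, ha, hae⟩ := hpos (e θ) (Complex.exp_ne_zero _)
    refine Finset.sum_pos' (fun b _ => pow_nonneg (le_max_right _ _) p) ⟨a, ha, ?_⟩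
    exact pow_pos (lt_max_of_lt_left hae) p
  set L : ℝ → ℂ := fun θ => ((-(Real.log (G θ)) / p : ℝ) : ℂ) + θ * Complex.I with hL
  set L' : ℝ → ℂ := fun θ => ((-(G' θ / G θ) / p : ℝ) : ℂ) + Complex.I with hL'
  have hLd : ∀ θ, HasDerivAt L (L' θ) θ := fun θ =>
    (((hGd θ).log (hG0 θ).ne').neg.div_const (p : ℝ)).ofReal_comp.add
      (by simpa using (hasDerivAt_id θ).ofReal_comp.mul_const Complex.I)
  set z : ℝ → ℂ := fun θ => Complex.exp (L θ) with hz
  set z' : ℝ → ℂ := fun θ => Complex.exp (L θ) * L' θ with hz'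
  have hec : Continuous e := by fun_prop
  have hGc : Continuous G := continuous_iff_continuousAt.2 fun θ => (hGd θ).continuousAt
  have hG'c : Continuous G' := by fun_prop
  have hL'c : Continuous L' :=
    (Complex.continuous_ofReal.comp ((hG'c.div hGc fun θ => (hG0 θ).ne').neg.div_const _)).add
      continuous_const
  have hLc : Continuous L := continuous_iff_continuousAt.2 fun θ => (hLd θ).continuousAt
  have heper : e (2 * Real.pi) = e 0 := by
    simp only [he, Complex.ofReal_zero, zero_mul, Complex.exp_zero]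
    push_cast
    exact Complex.exp_two_pi_mul_I
  have hGper : G (2 * Real.pi) = G 0 := by simp only [hG, heper]
  refine ⟨z, z', (Complex.continuous_exp.comp hLc).mul hL'c, fun θ => (hLd θ).cexp, ?_, ?_,
    fun θ => ?_⟩
  · simp only [hz, hL, hGper]
    rw [Complex.exp_add, Complex.exp_add]
    push_cast
    rw [Complex.exp_two_pi_mul_I]
    simp
  · have h1 : (fun θ => z' θ / z θ) = L' := by
      funext θ
      simp only [hz, hz']
      rw [mul_div_cancel_left₀ _ (Complex.exp_ne_zero _)]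
    rw [h1, intervalIntegral.integral_eq_sub_of_hasDerivAt (fun θ _ => hLd θ)
      (hL'c.intervalIntegrable _ _)]
    simp only [hL, hGper]
    push_cast
    ring
  · set r : ℝ := Real.exp (-(Real.log (G θ)) / p) with hr
    have hr0 : 0 < r := Real.exp_pos _
    have hzr : z θ = (r : ℂ) * e θ := by
      simp only [hz, hL, he, hr, Complex.exp_add, Complex.ofReal_exp]
    have hrp : r ^ p * G θ = 1 := by
      rw [hr, ← Real.exp_nat_mul, show (p : ℝ) * (-(Real.log (G θ)) / p) = -Real.log (G θ) by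
        field_simp, Real.exp_neg, Real.exp_log (hG0 θ), inv_mul_cancel₀ (hG0 θ).ne']
    set x : ℂ → ℝ := fun a => (conj a * e θ).re with hx
    set t : ℂ → ℝ := fun a => r * max (x a) 0 with ht
    have htsum : ∑ a ∈ S, t a ^ p = 1 := by
      rw [← hrp]; simp only [ht, hx, hG, mul_pow, Finset.mul_sum]
    have ht0 : ∀ a, 0 ≤ t a := fun a => mul_nonneg hr0.le (le_max_right _ _)
    have ht1 : ∀ a ∈ S, t a ≤ 1 := by
      intro a ha
      have h := Finset.single_le_sum (f := fun a => t a ^ p) (fun b _ => pow_nonneg (ht0 b) p) ha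
      rw [htsum] at h
      exact le_of_not_gt fun h' => absurd h (not_le.2 (one_lt_pow₀ h' (by omega)))
    refine ⟨hQ _ fun a ha => le_trans ?_ (ht1 a ha), fun s hs v hv => ?_⟩
    · rw [hzr, mul_left_comm, Complex.re_ofReal_mul]
      exact mul_le_mul_of_nonneg_left (le_max_left _ _) hr0.le
    · set c : ℂ → ℝ := fun a => max (x a) 0 ^ (p - 1) with hc
      have hkey : -Complex.I * z' θ = ((r / G θ : ℝ) : ℂ) * ∑ a ∈ S, (c a : ℂ) * a := by
        have hee : e θ * conj (e θ) = 1 := by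
          rw [Complex.mul_conj, Complex.normSq_eq_norm_sq, he]
          simp [Complex.norm_exp_ofReal_mul_I]
        have hterm : ∀ a : ℂ, ((max (x a) 0 ^ p : ℝ) : ℂ)
            + Complex.I * ((c a * (conj a * (Complex.I * e θ)).re : ℝ) : ℂ)
            = (c a : ℂ) * (a * conj (e θ)) := by
          intro a
          have hsx : max (x a) 0 ^ p = c a * x a := by
            rw [hc]
            rcases le_total (x a) 0 with h | h
            · simp [max_eq_right h, zero_pow (show p ≠ 0 by omega),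
                zero_pow (show p - 1 ≠ 0 by omega)]
            · simp only [max_eq_left h]
              rw [← pow_succ, show p - 1 + 1 = p by omega]
          rw [hsx]
          apply Complex.ext <;> simp [hx, Complex.mul_re, Complex.mul_im]
        have hsum : (G θ : ℂ) + Complex.I * ((G' θ / p : ℝ) : ℂ)
            = (∑ a ∈ S, (c a : ℂ) * a) * conj (e θ) := by
          have hgp : G' θ / p = ∑ a ∈ S, c a * (conj a * (Complex.I * e θ)).re := by
            rw [hG', Finset.sum_div]
            refine Finset.sum_congr rfl fun a _ => ?_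
            simp only [hc, hx]
            field_simp
          rw [hgp, hG]
          push_cast
          rw [Finset.mul_sum, ← Finset.sum_add_distrib, Finset.sum_mul]
          refine Finset.sum_congr rfl fun a _ => ?_
          have := hterm a
          push_cast at this
          rw [mul_assoc]
          exact this
        have h2 : ∑ a ∈ S, (c a : ℂ) * a
            = ((G θ : ℂ) + Complex.I * ((G' θ / p : ℝ) : ℂ)) * e θ := by
          rw [hsum, mul_assoc, mul_comm (conj _), hee, mul_one]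
        have hGne : (G θ : ℂ) ≠ 0 := by exact_mod_cast (hG0 θ).ne'
        have hpne : (p : ℂ) ≠ 0 := by exact_mod_cast (show p ≠ 0 by omega)
        have hzz : z' θ = z θ * L' θ := rfl
        rw [h2, hzz, hzr]
        simp only [hL']
        push_cast
        field_simp
        ring_nf
        rw [Complex.I_sq]
        ring
      rw [hkey, map_mul, Complex.conj_ofReal, map_sum, mul_assoc, Complex.re_ofReal_mul]
      refine mul_pos (div_pos hr0 (hG0 θ)) ?_
      rw [Finset.sum_mul, Complex.re_sum]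
      have hterm : ∀ a ∈ S, c a * (r * x a) - c a * ρ
          ≤ (conj ((c a : ℂ) * a) * (z θ - (s : ℂ) * v)).re := by
        intro a ha
        have h1 : (conj ((c a : ℂ) * a) * (z θ - (s : ℂ) * v)).re
            = c a * (r * x a - s * (conj a * v).re) := by
          rw [map_mul, Complex.conj_ofReal, mul_assoc, Complex.re_ofReal_mul, mul_sub,
            Complex.sub_re, hzr, mul_left_comm, Complex.re_ofReal_mul, mul_left_comm (conj a),
            Complex.re_ofReal_mul]
        rw [h1, mul_sub]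
        refine sub_le_sub_left (mul_le_mul_of_nonneg_left ?_ (pow_nonneg (le_max_right _ _) _)) _
        calc s * (conj a * v).re ≤ s * ρ := mul_le_mul_of_nonneg_left (hρ a ha v hv) hs.1
          _ ≤ 1 * ρ := mul_le_mul_of_nonneg_right hs.2 hρ0
          _ = ρ := one_mul ρ
      refine lt_of_lt_of_le ?_ (Finset.sum_le_sum hterm)
      have hr1 : ∀ a ∈ S, c a * (r * x a) - c a * ρ
          = (t a ^ p - ρ * t a ^ (p - 1)) / r ^ (p - 1) := by
        intro a _
        have hcx : c a * x a = c a * max (x a) 0 := by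
          rcases le_total (x a) 0 with h | h
          · simp [hc, max_eq_right h, zero_pow (show p - 1 ≠ 0 by omega)]
          · rw [max_eq_left h]
        rw [eq_div_iff (pow_ne_zero _ hr0.ne')]
        calc (c a * (r * x a) - c a * ρ) * r ^ (p - 1)
            = (c a * x a) * r * r ^ (p - 1) - ρ * (c a * r ^ (p - 1)) := by ring
          _ = (c a * max (x a) 0) * r * r ^ (p - 1) - ρ * (c a * r ^ (p - 1)) := by rw [hcx]
          _ = t a ^ p - ρ * t a ^ (p - 1) := by
            simp only [hc, ht, mul_pow]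
            conv_rhs => rw [show p = p - 1 + 1 by omega, pow_succ, pow_succ]
            simp only [show p - 1 + 1 - 1 = p - 1 by omega]
            ring
      rw [Finset.sum_congr rfl hr1, ← Finset.sum_div]
      refine div_pos ?_ (pow_pos hr0 _)
      rw [Finset.sum_sub_distrib, htsum, ← Finset.mul_sum, sub_pos]
      refine lt_of_le_of_lt (mul_le_mul_of_nonneg_left ?_ hρ0) hm
      calc ∑ a ∈ S, t a ^ (p - 1) ≤ ∑ a ∈ S, (t a ^ p / q + q ^ (p - 1)) := by
            refine Finset.sum_le_sum fun a _ => ?_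
            rcases le_total (t a) q with h | h
            · have : 0 ≤ t a ^ p / q := div_nonneg (pow_nonneg (ht0 a) _) hq0.le
              linarith [pow_le_pow_left₀ (ht0 a) h (p - 1)]
            · have h1 : t a ^ (p - 1) ≤ t a ^ p / q := by
                rw [le_div_iff₀ hq0]
                calc t a ^ (p - 1) * q ≤ t a ^ (p - 1) * t a :=
                      mul_le_mul_of_nonneg_left h (pow_nonneg (ht0 a) _)
                  _ = t a ^ p := by rw [← pow_succ, show p - 1 + 1 = p by omega]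
              linarith [pow_nonneg hq0.le (p - 1)]
        _ = 1 / q + S.card * q ^ (m + 1) := by
            rw [Finset.sum_add_distrib, ← Finset.sum_div, htsum, Finset.sum_const, nsmul_eq_mul,
              hp1]

end Vale.Agent.P123
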