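import Mathlib

/-!
The core inequality: if `k θ` is a continuous family of accretive operators commuting with `T`
and `∫ φ ^ n • k = T ^ n` for some scalar function with `‖φ‖ ≤ 1`, then `‖T‖ ≤ 2`.
-/

open scoped InnerProductSpace ComplexConjugate
open MeasureTheory

set_option linter.unusedSectionVars false
set_option linter.unusedSimpArgs false

namespace Vale.Agent.P123

variable {E : Type*} [NormedAddCommGroup E] [InnerProductSpace ℂ E] [CompleteSpace E]

/-- The sesquilinear form of `k + k†`. -/
noncomputable def form (K : E →L[ℂ] E) (u v : E) : ℂ := ⟪u, K v⟫_ℂ + ⟪K u, v⟫_ℂ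

lemma form_smul_left (K : E →L[ℂ] E) (c : ℂ) (u v : E) :
    form K (c • u) v = conj c * form K u v := by
  simp [form, inner_smul_left, map_smul]; ring

lemma form_smul_right (K : E →L[ℂ] E) (c : ℂ) (u v : E) :
    form K u (c • v) = c * form K u v := by
  simp [form, inner_smul_right, map_smul, mul_add]

lemma form_add_left (K : E →L[ℂ] E) (u u' v : E) :
    form K (u + u') v = form K u v + form K u' v := by
  simp only [form, inner_add_left, map_add]; ring

lemma form_add_right (K : E →L[ℂ] E) (u v v' : E) :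
    form K u (v + v') = form K u v + form K u v' := by
  simp only [form, inner_add_right, map_add]; ring

lemma form_sub_left (K : E →L[ℂ] E) (u u' v : E) :
    form K (u - u') v = form K u v - form K u' v := by
  simp only [form, inner_sub_left, map_sub]; ring

lemma form_sum_left {ι : Type*} (K : E →L[ℂ] E) (s : Finset ι) (f : ι → E) (v : E) :
    form K (∑ i ∈ s, f i) v = ∑ i ∈ s, form K (f i) v := by
  simp [form, sum_inner, map_sum, Finset.sum_add_distrib]

lemma form_sum_right {ι : Type*} (K : E →L[ℂ] E) (s : Finset ι) (u : E) (f : ι → E) :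
    form K u (∑ i ∈ s, f i) = ∑ i ∈ s, form K u (f i) := by
  simp [form, inner_sum, map_sum, Finset.sum_add_distrib]

lemma form_conj (K : E →L[ℂ] E) (u v : E) : conj (form K u v) = form K v u := by
  simp only [form, map_add, inner_conj_symm]; ring

lemma form_self_re (K : E →L[ℂ] E) (v : E) : (form K v v).re = 2 * (⟪v, K v⟫_ℂ).re := by
  have h : ⟪K v, v⟫_ℂ = conj ⟪v, K v⟫_ℂ := (inner_conj_symm _ _).symm
  rw [form, h, Complex.add_re, Complex.conj_re]; ring

lemma form_add_self (K : E →L[ℂ] E) (u v : E) :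
    (form K (u + v) (u + v)).re
      = (form K u u).re + 2 * (form K u v).re + (form K v v).re := by
  have h : (form K v u).re = (form K u v).re := by
    rw [← form_conj K u v, Complex.conj_re]
  simp only [form_add_left, form_add_right, Complex.add_re]
  linarith

lemma form_two_re_le (K : E →L[ℂ] E) (hK : ∀ v, 0 ≤ (⟪v, K v⟫_ℂ).re) (u v : E) :
    2 * (form K u v).re ≤ (form K u u).re + (form K v v).re := by
  have h := form_add_self K u ((-1 : ℂ) • v)
  have h0 : 0 ≤ (form K (u + (-1 : ℂ) • v) (u + (-1 : ℂ) • v)).re := by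
    rw [form_self_re]; linarith [hK (u + (-1 : ℂ) • v)]
  rw [h, form_smul_left, form_smul_right, form_smul_right] at h0
  simp at h0
  linarith

/-- Cauchy-Schwarz for a nonnegatively weighted sum. -/
lemma form_weighted_sum_le {ι : Type*} (K : E →L[ℂ] E) (hK : ∀ v, 0 ≤ (⟪v, K v⟫_ℂ).re)
    (s : Finset ι) (c : ι → ℝ) (hc : ∀ i ∈ s, 0 ≤ c i) (f : ι → E) :
    (form K (∑ i ∈ s, (c i : ℂ) • f i) (∑ i ∈ s, (c i : ℂ) • f i)).re
      ≤ (∑ i ∈ s, c i) * ∑ i ∈ s, c i * (form K (f i) (f i)).re := by
  have h1 : (form K (∑ i ∈ s, (c i : ℂ) • f i) (∑ i ∈ s, (c i : ℂ) • f i)).re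
      = ∑ i ∈ s, ∑ j ∈ s, c i * c j * (form K (f i) (f j)).re := by
    rw [form_sum_left, Complex.re_sum]
    refine Finset.sum_congr rfl fun i _ => ?_
    rw [form_sum_right, Complex.re_sum]
    refine Finset.sum_congr rfl fun j _ => ?_
    rw [form_smul_left, form_smul_right, Complex.conj_ofReal]
    simp [mul_assoc]
  have h2 : ∑ i ∈ s, ∑ j ∈ s, c i * c j * (form K (f i) (f j)).re
      ≤ ∑ i ∈ s, ∑ j ∈ s,
          c i * c j * (((form K (f i) (f i)).re + (form K (f j) (f j)).re) / 2) := by
    refine Finset.sum_le_sum fun i hi => Finset.sum_le_sum fun j hj => ?_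
    refine mul_le_mul_of_nonneg_left ?_ (mul_nonneg (hc i hi) (hc j hj))
    linarith [form_two_re_le K hK (f i) (f j)]
  rw [h1]
  refine h2.trans (le_of_eq ?_)
  have e : ∀ i j, c i * c j * (((form K (f i) (f i)).re + (form K (f j) (f j)).re) / 2)
      = (c i * (form K (f i) (f i)).re) * c j / 2 + c i * (c j * (form K (f j) (f j)).re) / 2 :=
    fun i j => by ring
  simp only [e, Finset.sum_add_distrib, ← Finset.sum_div, ← Finset.mul_sum, ← Finset.sum_mul]
  ring

lemma exists_norming (T : E →L[ℂ] E) (x : E) (hx : ‖x‖ = 1) (hTx : ‖T x‖ = ‖T‖) :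
    ContinuousLinearMap.adjoint T (T x) = ((‖T‖ ^ 2 : ℝ) : ℂ) • x := by
  set S := ContinuousLinearMap.adjoint T
  set C := ‖T‖
  have h1 : ‖S (T x)‖ ≤ C ^ 2 := by
    have := S.le_opNorm (T x)
    rw [LinearIsometryEquiv.norm_map, hTx] at this
    nlinarith [this]
  have h2 : (⟪S (T x), x⟫_ℂ).re = C ^ 2 := by
    rw [ContinuousLinearMap.adjoint_inner_left, inner_self_eq_norm_sq_to_K, hTx]
    norm_cast
  have h3 : ‖S (T x) - ((C ^ 2 : ℝ) : ℂ) • x‖ ^ 2 ≤ 0 := by
    rw [norm_sub_sq (𝕜 := ℂ), inner_smul_right, norm_smul, hx]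
    have hC : 0 ≤ C := norm_nonneg _
    have : RCLike.re (((C ^ 2 : ℝ) : ℂ) * ⟪S (T x), x⟫_ℂ) = C ^ 2 * C ^ 2 := by
      show (((C ^ 2 : ℝ) : ℂ) * ⟪S (T x), x⟫_ℂ).re = _
      rw [Complex.re_ofReal_mul, h2]
    rw [this, Complex.norm_real, Real.norm_of_nonneg (sq_nonneg C)]
    nlinarith [mul_self_le_mul_self (norm_nonneg (S (T x))) h1]
  have h4 : ‖S (T x) - ((C ^ 2 : ℝ) : ℂ) • x‖ = 0 := by
    nlinarith [norm_nonneg (S (T x) - ((C ^ 2 : ℝ) : ℂ) • x)]
  exact sub_eq_zero.1 (norm_eq_zero.1 h4)

variable {a b : ℝ}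

lemma integral_inner_right (F : ℝ → E →L[ℂ] E) (hF : Continuous F) (u v : E) :
    ∫ θ in a..b, ⟪u, F θ v⟫_ℂ = ⟪u, (∫ θ in a..b, F θ) v⟫_ℂ := by
  have h := ((innerSL ℂ u).comp (ContinuousLinearMap.apply ℂ E v)).intervalIntegral_comp_comm
    (μ := volume) (hF.intervalIntegrable a b)
  simpa using h

lemma integral_inner_left (F : ℝ → E →L[ℂ] E) (hF : Continuous F) (u v : E) :
    ∫ θ in a..b, ⟪F θ u, v⟫_ℂ = ⟪(∫ θ in a..b, F θ) u, v⟫_ℂ := by
  rw [← inner_conj_symm _ v, ← integral_inner_right F hF v u]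
  have h := Complex.conjCLE.toContinuousLinearMap.intervalIntegral_comp_comm (μ := volume)
    (f := fun θ => ⟪v, F θ u⟫_ℂ)
    ((continuous_const.inner (hF.clm_apply continuous_const)).intervalIntegrable a b)
  simpa [inner_conj_symm] using h

variable (φ : ℝ → ℂ) (k : ℝ → E →L[ℂ] E)

/-- The conjugate moments. -/
noncomputable def conjMoment (a b : ℝ) (n : ℕ) : E →L[ℂ] E :=
  ∫ θ in a..b, (conj (φ θ)) ^ n • k θ

lemma moment_formula (hφc : Continuous φ) (hk : Continuous k) (T : E →L[ℂ] E)
    (hmom : ∀ n : ℕ, (∫ θ in a..b, φ θ ^ n • k θ) = T ^ n) (n : ℕ) (u v : E) :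
    ∫ θ in a..b, φ θ ^ n * form (k θ) u v
      = ⟪u, (T ^ n) v⟫_ℂ + ⟪conjMoment φ k a b n u, v⟫_ℂ := by
  have hF : Continuous fun θ => φ θ ^ n • k θ := (hφc.pow n).smul hk
  have hG : Continuous fun θ => (conj (φ θ)) ^ n • k θ :=
    ((Complex.continuous_conj.comp hφc).pow n).smul hk
  rw [← hmom n, conjMoment, ← integral_inner_right _ hF, ← integral_inner_left _ hG,
    ← intervalIntegral.integral_add]
  · refine intervalIntegral.integral_congr fun θ _ => ?_
    simp [form, inner_smul_left, inner_smul_right, mul_add]; ring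
  · exact (continuous_const.inner (hF.clm_apply continuous_const)).intervalIntegrable a b
  · exact ((hG.clm_apply continuous_const).inner continuous_const).intervalIntegrable a b

lemma conjMoment_commute (hφc : Continuous φ) (hk : Continuous k) (T : E →L[ℂ] E)
    (hcomm : ∀ θ, Commute T (k θ)) (n : ℕ) : Commute T (conjMoment φ k a b n) := by
  have hG : Continuous fun θ => (conj (φ θ)) ^ n • k θ :=
    ((Complex.continuous_conj.comp hφc).pow n).smul hk
  have h1 := (ContinuousLinearMap.mul ℂ (E →L[ℂ] E) T).intervalIntegral_comp_comm (μ := volume)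
    (hG.intervalIntegrable a b)
  have h2 := ((ContinuousLinearMap.mul ℂ (E →L[ℂ] E)).flip T).intervalIntegral_comp_comm
    (μ := volume) (hG.intervalIntegrable a b)
  simp only [ContinuousLinearMap.mul_apply', ContinuousLinearMap.flip_apply] at h1 h2
  show T * _ = _ * T
  rw [conjMoment, ← h1, ← h2]
  refine intervalIntegral.integral_congr fun θ _ => ?_
  simp only [mul_smul_comm, smul_mul_assoc, (hcomm θ).eq]

theorem norm_le_two (hab : a ≤ b) (hφc : Continuous φ) (hk : Continuous k)
    (hφ : ∀ θ, ‖φ θ‖ ≤ 1) (hpos : ∀ θ v, 0 ≤ (⟪v, k θ v⟫_ℂ).re)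
    (T : E →L[ℂ] E) (hcomm : ∀ θ, Commute T (k θ))
    (hmom : ∀ n : ℕ, (∫ θ in a..b, φ θ ^ n • k θ) = T ^ n)
    (x : E) (hx : ‖x‖ = 1) (hTx : ‖T x‖ = ‖T‖) : ‖T‖ ≤ 2 := by
  by_contra hlt
  push Not at hlt
  set C := ‖T‖ with hCdef
  have hC0 : (C : ℂ) ≠ 0 := by exact_mod_cast (show C ≠ 0 by linarith)
  set y : E := ((C : ℂ)⁻¹) • T x with hy
  have hy1 : ‖y‖ = 1 := by
    rw [hy, norm_smul, norm_inv, Complex.norm_real, hTx, Real.norm_of_nonneg (by linarith)]
    field_simp
  have hTy : ContinuousLinearMap.adjoint T y = (C : ℂ) • x := by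
    rw [hy, map_smul, exists_norming T x hx hTx, smul_smul]
    congr 1
    rw [← hCdef]
    push_cast
    field_simp
  set R := conjMoment φ k a b with hR
  set u : ℕ → E := fun j => (ContinuousLinearMap.adjoint T ^ j) x with hu
  set A : ℕ → ℂ := fun n => ⟪(T ^ n) (R n x), x⟫_ℂ with hA
  have hadj : ∀ (n : ℕ) (p q : E),
      ⟪(ContinuousLinearMap.adjoint T ^ n) p, q⟫_ℂ = ⟪p, (T ^ n) q⟫_ℂ := by
    intro n p q
    rw [← ContinuousLinearMap.adjoint_inner_left, ← ContinuousLinearMap.star_eq_adjoint,
      ← ContinuousLinearMap.star_eq_adjoint, star_pow]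
  have hadj' : ∀ (n : ℕ) (p q : E),
      ⟪p, (ContinuousLinearMap.adjoint T ^ n) q⟫_ℂ = ⟪(T ^ n) p, q⟫_ℂ := by
    intro n p q
    rw [← inner_conj_symm, hadj, inner_conj_symm]
  have hR0 : R 0 = 1 := by
    have := hmom 0
    simpa [hR, conjMoment] using this
  have hA0 : A 0 = 1 := by
    simp [hA, hR0, inner_self_eq_norm_sq_to_K, hx]
  have hL : ∀ j : ℕ,
      ∫ θ in a..b, φ θ ^ j * form (k θ) ((conj (φ θ)) • y - x) (u j)
        = ((C - 1 : ℝ) : ℂ) * ((‖u j‖ ^ 2 : ℝ) : ℂ) + A (j + 1) / C - A j := by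
    intro j
    have hc : ∀ p q : E, Continuous fun θ => form (k θ) p q := fun p q =>
      (continuous_const.inner (hk.clm_apply continuous_const)).add
        ((hk.clm_apply continuous_const).inner continuous_const)
    have e : (fun θ => φ θ ^ j * form (k θ) ((conj (φ θ)) • y - x) (u j))
        = fun θ => φ θ ^ (j + 1) * form (k θ) y (u j) - φ θ ^ j * form (k θ) x (u j) := by
      funext θ
      rw [form_sub_left, form_smul_left, Complex.conj_conj, pow_succ]
      ring
    have i1 : IntervalIntegrable (fun θ => φ θ ^ (j + 1) * form (k θ) y (u j)) volume a b :=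
      ((hφc.pow _).mul (hc _ _)).intervalIntegrable a b
    have i2 : IntervalIntegrable (fun θ => φ θ ^ j * form (k θ) x (u j)) volume a b :=
      ((hφc.pow _).mul (hc _ _)).intervalIntegrable a b
    rw [e, intervalIntegral.integral_sub i1 i2, moment_formula φ k hφc hk T hmom, moment_formula φ k hφc hk T hmom]
    have e1 : ⟪x, (T ^ j) (u j)⟫_ℂ = ((‖u j‖ ^ 2 : ℝ) : ℂ) := by
      rw [← hadj]
      show ⟪u j, u j⟫_ℂ = _
      rw [inner_self_eq_norm_sq_to_K]
      push_cast; rfl
    have e2 : ⟪y, (T ^ (j + 1)) (u j)⟫_ℂ = (C : ℂ) * ((‖u j‖ ^ 2 : ℝ) : ℂ) := by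
      rw [pow_succ', mul_apply_eq_comp,
        ← ContinuousLinearMap.adjoint_inner_left, hTy, inner_smul_left, Complex.conj_ofReal, e1]
    have e3 : ⟪R j x, u j⟫_ℂ = A j := hadj' j _ _
    have e4 : ⟪R (j + 1) y, u j⟫_ℂ = A (j + 1) / C := by
      rw [hu]
      simp only
      rw [hadj', hy, map_smul, map_smul, inner_smul_left]
      have : R (j + 1) (T x) = T (R (j + 1) x) := by
        have := (conjMoment_commute (a := a) (b := b) φ k hφc hk T hcomm (j + 1)).eq
        exact (congrArg (fun F : E →L[ℂ] E => F x) this).symm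
      rw [this, map_inv₀, Complex.conj_ofReal, hA, div_eq_inv_mul]
      simp [pow_succ]
    rw [← hR, e1, e2, e3, e4]
    push_cast
    ring
  set c : ℕ → ℝ := fun j => (1 / C) ^ j with hc'
  have hcpos : ∀ j, 0 ≤ c j := fun j => by
    have : 0 ≤ 1 / C := by positivity
    exact pow_nonneg this j
  -- the main estimate
  have key : ∀ N : ℕ, C - 2 ≤ -(((c (N + 1) : ℂ) * A (N + 1)).re) := by
    intro N
    set s := Finset.Icc 1 N with hs
    set W := ∑ j ∈ s, c j * ‖u j‖ ^ 2 with hW
    set S := ∑ j ∈ s, c j with hS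
    have hW0 : 0 ≤ W := Finset.sum_nonneg fun j _ => mul_nonneg (hcpos j) (sq_nonneg _)
    have hS1 : S * (C - 1) ≤ 1 := by
      have hg : ∀ n : ℕ, (∑ j ∈ Finset.Icc 1 n, c j) * (C - 1) = 1 - c n := by
        intro n
        induction n with
        | zero => simp [hc']
        | succ n ih =>
          rw [Finset.sum_Icc_succ_top (by omega), add_mul, ih]
          simp only [hc', pow_succ]
          field_simp
          ring
      rw [hS, hs, hg N]; linarith [hcpos N]
    have hsplit : ∀ g : ℕ → ℂ, ∑ j ∈ Finset.range (N + 1), g j = g 0 + ∑ j ∈ s, g j := by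
      intro g
      have hr : Finset.range (N + 1) = insert 0 s := by
        ext j; simp [hs]; omega
      rw [hr, Finset.sum_insert (by simp [hs])]
    -- left hand side
    have hleft : (∑ j ∈ Finset.range (N + 1), (c j : ℂ) *
        (((C - 1 : ℝ) : ℂ) * ((‖u j‖ ^ 2 : ℝ) : ℂ) + A (j + 1) / C - A j)).re
        = (C - 1) * (1 + W) + ((c (N + 1) : ℂ) * A (N + 1)).re - 1 := by
      have h1 : ∀ j, (c j : ℂ) * (((C - 1 : ℝ) : ℂ) * ((‖u j‖ ^ 2 : ℝ) : ℂ) + A (j + 1) / C - A j)
          = (((C - 1) * (c j * ‖u j‖ ^ 2) : ℝ) : ℂ)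
            + ((c (j + 1) : ℂ) * A (j + 1) - (c j : ℂ) * A j) := by
        intro j
        simp only [hc', pow_succ]
        push_cast
        ring
      simp only [h1]
      rw [Finset.sum_add_distrib, Finset.sum_range_sub (fun j => (c j : ℂ) * A j), hsplit,
        Complex.add_re, Complex.sub_re, Complex.add_re, Complex.re_sum]
      simp only [Complex.ofReal_re, hA0]
      rw [← Finset.mul_sum]
      simp [hc', hu, hx, hW]
      ring
    have hformc : ∀ {f g : ℝ → E}, Continuous f → Continuous g →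
        Continuous fun θ => form (k θ) (f θ) (g θ) := fun {f g} hf hg =>
      (hf.inner (hk.clm_apply hg)).add ((hk.clm_apply hf).inner hg)
    set δ : ℝ → E := fun θ => (conj (φ θ)) • y - x with hδ
    have hδc : Continuous δ :=
      ((Complex.continuous_conj.comp hφc).smul continuous_const).sub continuous_const
    have hsum : ∑ j ∈ Finset.range (N + 1), (c j : ℂ) *
        (((C - 1 : ℝ) : ℂ) * ((‖u j‖ ^ 2 : ℝ) : ℂ) + A (j + 1) / C - A j)
        = ∫ θ in a..b, ∑ j ∈ Finset.range (N + 1), (c j : ℂ) * (φ θ ^ j * form (k θ) (δ θ) (u j)) := by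
      rw [intervalIntegral.integral_finsetSum]
      · refine Finset.sum_congr rfl fun j _ => ?_
        rw [intervalIntegral.integral_const_mul, hL j]
      · intro j _
        exact (continuous_const.mul
          ((hφc.pow j).mul (hformc hδc continuous_const))).intervalIntegrable a b
    -- pointwise estimate
    have hpt : ∀ θ, 2 * (∑ j ∈ Finset.range (N + 1),
          (c j : ℂ) * (φ θ ^ j * form (k θ) (δ θ) (u j))).re
        ≤ (form (k θ) y y).re - (form (k θ) x x).re
          + S * ∑ j ∈ s, c j * (form (k θ) (u j) (u j)).re := by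
      intro θ
      set Z : E := ∑ j ∈ s, (c j : ℂ) • (φ θ ^ j • u j) with hZ
      have hsumeq : ∑ j ∈ Finset.range (N + 1),
          (c j : ℂ) * (φ θ ^ j * form (k θ) (δ θ) (u j))
          = form (k θ) (δ θ) x + form (k θ) (δ θ) Z := by
        rw [hsplit, hZ, form_sum_right]
        simp [hc', hu, form_smul_right]
      have e1 : 2 * (form (k θ) (δ θ) x).re
          ≤ (form (k θ) y y).re - (form (k θ) (δ θ) (δ θ)).re - (form (k θ) x x).re := by
        have h := form_add_self (k θ) (δ θ) x
        have hd : δ θ + x = (conj (φ θ)) • y := by simp [hδ]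
        rw [hd, form_smul_left, form_smul_right, Complex.conj_conj, ← mul_assoc,
          Complex.mul_conj, Complex.re_ofReal_mul] at h
        have h1 : Complex.normSq (φ θ) ≤ 1 := by
          rw [Complex.normSq_eq_norm_sq]
          nlinarith [hφ θ, norm_nonneg (φ θ)]
        have h2 : 0 ≤ (form (k θ) y y).re := by rw [form_self_re]; linarith [hpos θ y]
        nlinarith [mul_le_mul_of_nonneg_right h1 h2]
      have e2 := form_two_re_le (k θ) (hpos θ) (δ θ) Z
      have e3 := form_weighted_sum_le (k θ) (hpos θ) s c (fun j _ => hcpos j)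
        (fun j => φ θ ^ j • u j)
      have e4 : ∀ j, (form (k θ) (φ θ ^ j • u j) (φ θ ^ j • u j)).re
          ≤ (form (k θ) (u j) (u j)).re := by
        intro j
        rw [form_smul_left, form_smul_right, ← mul_assoc, mul_comm (conj _) (φ θ ^ j),
          Complex.mul_conj, Complex.re_ofReal_mul]
        refine mul_le_of_le_one_left (by rw [form_self_re]; linarith [hpos θ (u j)]) ?_
        rw [map_pow, Complex.normSq_eq_norm_sq]
        refine pow_le_one₀ (sq_nonneg _) ?_
        nlinarith [hφ θ, norm_nonneg (φ θ)]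
      have e5 : (form (k θ) Z Z).re ≤ S * ∑ j ∈ s, c j * (form (k θ) (u j) (u j)).re :=
        e3.trans (mul_le_mul_of_nonneg_left
          (Finset.sum_le_sum fun j _ => mul_le_mul_of_nonneg_left (e4 j) (hcpos j))
          (Finset.sum_nonneg fun j _ => hcpos j))
      rw [hsumeq, Complex.add_re]
      linarith
    have hq : ∀ v : E, ∫ θ in a..b, (form (k θ) v v).re = 2 * ‖v‖ ^ 2 := by
      intro v
      have h := Complex.reCLM.intervalIntegral_comp_comm (μ := volume)
        ((hformc (f := fun _ => v) (g := fun _ => v) continuous_const continuous_const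
          ).intervalIntegrable a b)
      have hm := moment_formula φ k hφc hk T hmom 0 v v
      rw [← hR] at hm
      simp only [pow_zero, one_mul, hR0] at hm
      simp only [Complex.reCLM_apply] at h
      rw [h, hm]
      simp only [one_apply_eq_self, inner_self_eq_norm_sq_to_K]
      simp; norm_cast; ring
    have hre : ∀ v : E, IntervalIntegrable (fun θ => (form (k θ) v v).re) volume a b := fun v =>
      (Complex.continuous_re.comp (hformc (f := fun _ => v) (g := fun _ => v)
        continuous_const continuous_const)).intervalIntegrable a b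
    have hmain : 2 * ((C - 1) * (1 + W) + ((c (N + 1) : ℂ) * A (N + 1)).re - 1)
        ≤ 2 * S * W := by
      have hsc : Continuous fun θ => ∑ j ∈ Finset.range (N + 1),
          (c j : ℂ) * (φ θ ^ j * form (k θ) (δ θ) (u j)) :=
        continuous_finsetSum _ fun j _ =>
          continuous_const.mul ((hφc.pow j).mul (hformc hδc continuous_const))
      have h1 := Complex.reCLM.intervalIntegral_comp_comm (μ := volume) (hsc.intervalIntegrable a b)
      simp only [Complex.reCLM_apply] at h1
      rw [← hleft, hsum, ← h1, ← intervalIntegral.integral_const_mul]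
      refine (intervalIntegral.integral_mono_on hab ?_ ?_ (fun θ _ => hpt θ)).trans (le_of_eq ?_)
      · exact ((Complex.continuous_re.comp hsc).const_mul 2).intervalIntegrable a b
      · exact ((hre y).sub (hre x)).add
          (((continuous_finsetSum _ fun j _ => continuous_const.mul (Complex.continuous_re.comp
            (hformc (f := fun _ => u j) (g := fun _ => u j) continuous_const continuous_const))
            ).intervalIntegrable a b).const_mul S)
      · have i1 : IntervalIntegrable (fun θ => ∑ j ∈ s, c j * (form (k θ) (u j) (u j)).re)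
            volume a b :=
          (continuous_finsetSum _ fun j _ => continuous_const.mul (Complex.continuous_re.comp
            (hformc (f := fun _ => u j) (g := fun _ => u j) continuous_const continuous_const))
            ).intervalIntegrable a b
        rw [intervalIntegral.integral_add ((hre y).sub (hre x)) (i1.const_mul S),
          intervalIntegral.integral_sub (hre y) (hre x), intervalIntegral.integral_const_mul,
          intervalIntegral.integral_finsetSum (fun j _ => (hre (u j)).const_mul (c j))]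
        simp only [intervalIntegral.integral_const_mul, hq, hy1, hx, hW, Finset.mul_sum]
        ring_nf
    have hS2 : S ≤ C - 1 := by
      have : 0 ≤ S := Finset.sum_nonneg fun j _ => hcpos j
      nlinarith
    linarith [mul_le_mul_of_nonneg_right hS2 hW0]
  -- the remainder tends to zero
  set B := ∫ θ in a..b, ‖k θ‖ with hB
  have hB0 : 0 ≤ B := intervalIntegral.integral_nonneg hab fun θ _ => norm_nonneg _
  have hbound : ∀ (ψ : ℝ → ℂ), Continuous ψ → (∀ θ, ‖ψ θ‖ ≤ 1) →
      ‖∫ θ in a..b, ψ θ • k θ‖ ≤ B := by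
    intro ψ hψc hψ
    refine intervalIntegral.norm_integral_le_of_norm_le hab
      (Filter.Eventually.of_forall fun θ _ => ?_) (hk.norm.intervalIntegrable a b)
    rw [norm_smul]
    exact mul_le_of_le_one_left (norm_nonneg _) (hψ θ)
  have hAb : ∀ n, ‖A n‖ ≤ B * B := by
    intro n
    have hT : ‖T ^ n‖ ≤ B := by
      rw [← hmom n]
      exact hbound _ (hφc.pow n) fun θ => by
        rw [norm_pow]; exact pow_le_one₀ (norm_nonneg _) (hφ θ)
    have hRn : ‖R n‖ ≤ B :=
      hbound _ ((Complex.continuous_conj.comp hφc).pow n) fun θ => by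
        rw [norm_pow, RCLike.norm_conj]; exact pow_le_one₀ (norm_nonneg _) (hφ θ)
    calc ‖A n‖ ≤ ‖(T ^ n) (R n x)‖ * ‖x‖ := norm_inner_le_norm _ _
      _ ≤ B * B := by
        rw [hx, mul_one]
        refine ((T ^ n).le_opNorm _).trans ?_
        refine mul_le_mul hT ?_ (norm_nonneg _) hB0
        simpa [hx] using ((R n).le_opNorm x).trans
          (mul_le_mul_of_nonneg_right hRn (norm_nonneg _))
  have hlim : Filter.Tendsto (fun N : ℕ => (1 / C) ^ (N + 1) * (B * B)) Filter.atTop (nhds 0) := by
    have h1 : 1 / C < 1 := by rw [div_lt_one (by linarith)]; linarith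
    simpa using ((tendsto_pow_atTop_nhds_zero_of_lt_one (by positivity) h1).comp
      (Filter.tendsto_add_atTop_nat 1)).mul_const (B * B)
  have hfin : ∀ N : ℕ, C - 2 ≤ (1 / C) ^ (N + 1) * (B * B) := by
    intro N
    refine (key N).trans ?_
    have h1 := Complex.abs_re_le_norm ((c (N + 1) : ℂ) * A (N + 1))
    rw [norm_mul, Complex.norm_real, Real.norm_of_nonneg (hcpos _)] at h1
    have h2 := mul_le_mul_of_nonneg_left (hAb (N + 1)) (hcpos (N + 1))
    have h3 := neg_abs_le ((c (N + 1) : ℂ) * A (N + 1)).re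
    linarith
  linarith [ge_of_tendsto' hlim hfin]

end Vale.Agent.P123
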