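import Mathlib

/-!
Convexity of the numerical range (Toeplitz-Hausdorff) and compression to a finite-dimensional space.
-/

open scoped InnerProductSpace ComplexConjugate

set_option linter.unusedSectionVars false
set_option linter.unusedSimpArgs false

namespace Vale.Agent.P123

variable {E : Type*} [NormedAddCommGroup E] [InnerProductSpace ℂ E]

/-- The numerical range. -/
def numRange (B : E →L[ℂ] E) : Set ℂ := {w | ∃ v : E, ‖v‖ = 1 ∧ w = ⟪v, B v⟫_ℂ}

lemma inner_normalized (B : E →L[ℂ] E) (v : E) (hv : v ≠ 0) :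
    ⟪v, B v⟫_ℂ / ((‖v‖ ^ 2 : ℝ) : ℂ) ∈ numRange B := by
  refine ⟨((‖v‖⁻¹ : ℝ) : ℂ) • v, ?_, ?_⟩
  · rw [norm_smul, Complex.norm_real, norm_inv, norm_norm, inv_mul_cancel₀ (norm_ne_zero_iff.2 hv)]
  · rw [map_smul, inner_smul_left, inner_smul_right, Complex.conj_ofReal]
    push_cast
    field_simp

lemma numRange_segment (A : E →L[ℂ] E) (x y : E) (hx : ‖x‖ = 1) (hy : ‖y‖ = 1)
    (hx0 : ⟪x, A x⟫_ℂ = 0) (hy1 : ⟪y, A y⟫_ℂ = 1) (t : ℝ) (ht : t ∈ Set.Icc (0 : ℝ) 1) :
    (t : ℂ) ∈ numRange A := by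
  obtain ⟨u, hu, hd⟩ : ∃ u : ℂ, ‖u‖ = 1 ∧
      (u * (⟪x, A y⟫_ℂ - conj ⟪y, A x⟫_ℂ)).im = 0 := by
    set d := ⟪x, A y⟫_ℂ - conj ⟪y, A x⟫_ℂ
    by_cases hd : d = 0
    · exact ⟨1, by simp, by simp [hd]⟩
    · refine ⟨conj d / (‖d‖ : ℂ), ?_, ?_⟩
      · simp [hd]
      · rw [div_mul_eq_mul_div, mul_comm (conj d) d, Complex.mul_conj]
        simp [Complex.div_ofReal_im]
  set y' := u • y with hy'
  have hy'n : ‖y'‖ = 1 := by rw [hy', norm_smul, hu, hy, one_mul]
  have huu : conj u * u = 1 := by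
    rw [mul_comm, Complex.mul_conj, Complex.normSq_eq_norm_sq, hu]; norm_num
  have hy'1 : ⟪y', A y'⟫_ℂ = 1 := by
    rw [hy', map_smul, inner_smul_left, inner_smul_right, hy1, mul_one, huu]
  have hcross : (⟪x, A y'⟫_ℂ + ⟪y', A x⟫_ℂ).im = 0 := by
    rw [hy', map_smul, inner_smul_left, inner_smul_right]
    generalize ⟪x, A y⟫_ℂ = p at hd ⊢
    generalize ⟪y, A x⟫_ℂ = q at hd ⊢
    simp only [Complex.add_im, Complex.mul_im, Complex.sub_im, Complex.sub_re, Complex.conj_re,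
      Complex.conj_im] at hd ⊢
    linarith
  set v : ℝ → E := fun s => ((1 - s : ℝ) : ℂ) • x + (s : ℂ) • y' with hv
  have hne : ∀ s ∈ Set.Icc (0 : ℝ) 1, v s ≠ 0 := by
    intro s hs h
    have h1 : ((1 - s : ℝ) : ℂ) • x = -((s : ℂ) • y') := eq_neg_of_add_eq_zero_left h
    have h2 := congrArg norm h1
    rw [norm_neg, norm_smul, norm_smul, hx, hy'n, Complex.norm_real, Complex.norm_real,
      Real.norm_of_nonneg (by linarith [hs.2]), Real.norm_of_nonneg hs.1] at h2
    have h3 : s = 1 / 2 := by linarith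
    subst h3
    have h4 : x = -y' := by
      have hc : ((1 - 1 / 2 : ℝ) : ℂ) = ((1 / 2 : ℝ) : ℂ) := by norm_num
      rw [hc, ← smul_neg] at h1
      exact smul_right_injective E (show ((1 / 2 : ℝ) : ℂ) ≠ 0 by norm_num) h1
    rw [h4, map_neg, inner_neg_neg, hy'1] at hx0
    exact one_ne_zero hx0
  have hinner : ∀ s : ℝ, ⟪v s, A (v s)⟫_ℂ
      = ((1 - s : ℝ) : ℂ) * (s : ℂ) * (⟪x, A y'⟫_ℂ + ⟪y', A x⟫_ℂ) + ((s ^ 2 : ℝ) : ℂ) := by
    intro s
    simp only [hv, map_add, map_smul, inner_add_left, inner_add_right, inner_smul_left,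
      inner_smul_right, Complex.conj_ofReal, hx0, hy'1]
    push_cast
    ring
  have him : ∀ s : ℝ, (⟪v s, A (v s)⟫_ℂ).im = 0 := by
    intro s
    rw [hinner, Complex.add_im, ← Complex.ofReal_mul, Complex.im_ofReal_mul, hcross,
      Complex.ofReal_im]
    simp
  set f : ℝ → ℝ := fun s => (⟪v s, A (v s)⟫_ℂ).re / ‖v s‖ ^ 2 with hf
  have hvc : Continuous v := by fun_prop
  have hfc : ContinuousOn f (Set.Icc 0 1) := by
    refine ContinuousOn.div ?_ ?_ fun s hs => ?_
    · exact (Complex.continuous_re.comp (hvc.inner (A.continuous.comp hvc))).continuousOn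
    · exact (hvc.norm.pow 2).continuousOn
    · exact pow_ne_zero _ (norm_ne_zero_iff.2 (hne s hs))
  have hf0 : f 0 = 0 := by simp [hf, hv, hx0]
  have hf1 : f 1 = 1 := by simp [hf, hv, hy'1, hy'n]
  obtain ⟨s, hs, hst⟩ := intermediate_value_Icc zero_le_one hfc
    (show t ∈ Set.Icc (f 0) (f 1) by rwa [hf0, hf1])
  have h := inner_normalized A (v s) (hne s hs)
  convert h using 1
  apply Complex.ext
  · rw [Complex.div_ofReal_re, Complex.ofReal_re, ← hst]
  · rw [Complex.div_ofReal_im, him, Complex.ofReal_im, zero_div]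

theorem convex_numRange (B : E →L[ℂ] E) : Convex ℝ (numRange B) := by
  intro α hα β hβ a b ha hb hab
  by_cases hne : β = α
  · subst hne
    rwa [← add_smul, hab, one_smul]
  obtain ⟨x, hx, hxα⟩ := hα
  obtain ⟨y, hy, hyβ⟩ := hβ
  set A : E →L[ℂ] E := (β - α)⁻¹ • (B - α • 1) with hA
  have hAv : ∀ v : E, ‖v‖ = 1 → ⟪v, A v⟫_ℂ = (β - α)⁻¹ * (⟪v, B v⟫_ℂ - α) := by
    intro v hv
    simp [hA, inner_smul_right, inner_sub_right, inner_self_eq_norm_sq_to_K, hv]
  have hsub : β - α ≠ 0 := sub_ne_zero.2 hne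
  obtain ⟨v, hv, hvb⟩ := numRange_segment A x y hx hy
    (by rw [hAv x hx, ← hxα]; simp)
    (by rw [hAv y hy, ← hyβ, inv_mul_cancel₀ hsub]) b ⟨hb, by linarith⟩
  refine ⟨v, hv, ?_⟩
  rw [hAv v hv] at hvb
  have h1 : ⟪v, B v⟫_ℂ = α + (b : ℂ) * (β - α) := by
    rw [hvb]; field_simp; ring
  rw [h1, show a = 1 - b by linarith, Complex.real_smul, Complex.real_smul]
  push_cast
  ring

theorem isClosed_numRange [FiniteDimensional ℂ E] (B : E →L[ℂ] E) : IsClosed (numRange B) := by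
  have : ProperSpace E := FiniteDimensional.proper ℂ E
  have h : numRange B = (fun v => ⟪v, B v⟫_ℂ) '' Metric.sphere 0 1 := by
    ext w; simp [numRange, eq_comm]
  rw [h]
  exact ((isCompact_sphere _ _).image (continuous_id.inner B.continuous)).isClosed

lemma norm_le_of_mem_numRange (B : E →L[ℂ] E) {w : ℂ} (hw : w ∈ numRange B) : ‖w‖ ≤ ‖B‖ := by
  obtain ⟨v, hv, rfl⟩ := hw
  refine (norm_inner_le_norm _ _).trans ?_
  rw [hv, one_mul]
  simpa [hv] using B.le_opNorm v

/-- Compression to the span of the orbit segment of a vector. -/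
theorem exists_compression [CompleteSpace E] (A : E →L[ℂ] E) (P : Polynomial ℂ) (x : E) :
    ∃ (K : Submodule ℂ E) (_ : FiniteDimensional ℂ K) (B : K →L[ℂ] K) (x' : K),
      (x' : E) = x ∧ numRange B ⊆ numRange A ∧
        ((Polynomial.aeval B P) x' : E) = (Polynomial.aeval A P) x := by
  set d := P.natDegree
  set K : Submodule ℂ E := Submodule.span ℂ (Set.range fun i : Fin (d + 1) => (A ^ (i : ℕ)) x)
    with hK
  have hfd : FiniteDimensional ℂ K := FiniteDimensional.span_of_finite ℂ (Set.finite_range _)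
  have hmem : ∀ i ≤ d, (A ^ i) x ∈ K := fun i hi =>
    Submodule.subset_span ⟨⟨i, Nat.lt_succ_of_le hi⟩, rfl⟩
  set B : K →L[ℂ] K := K.orthogonalProjectionOnto.comp (A.comp K.subtypeL) with hB
  refine ⟨K, hfd, B, ⟨x, by simpa using hmem 0 (Nat.zero_le _)⟩, rfl, ?_, ?_⟩
  · rintro w ⟨v, hv, rfl⟩
    refine ⟨(v : E), by rw [← hv]; rfl, ?_⟩
    simp [hB]
  · have hpow : ∀ i ≤ d, (((B ^ i) ⟨x, by simpa using hmem 0 (Nat.zero_le _)⟩ : K) : E)
        = (A ^ i) x := by
      intro i hi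
      induction i with
      | zero => simp
      | succ i ih =>
        have h1 := ih (by omega)
        rw [pow_succ', pow_succ', mul_apply_eq_comp, mul_apply_eq_comp]
        simp only [hB, ContinuousLinearMap.comp_apply, Submodule.subtypeL_apply]
        rw [← hB, h1, ← mul_apply_eq_comp, ← pow_succ',
          ← Submodule.starProjection_apply, Submodule.starProjection_eq_self_iff.2 (hmem _ hi)]
    rw [Polynomial.aeval_eq_sum_range, Polynomial.aeval_eq_sum_range]
    simp only [FunLike.coe_sum, Finset.sum_apply, Submodule.coe_sum]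
    refine Finset.sum_congr rfl fun i hi => ?_
    simp only [FunLike.coe_smul, Pi.smul_apply, Submodule.coe_smul]
    rw [hpow i (Nat.lt_succ_iff.1 (Finset.mem_range.1 hi))]

end Vale.Agent.P123
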