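import Mathlib
import Vale.Agent.P123.Moments
import Vale.Agent.P123.Range
import Vale.Agent.P123.Contour

/-!
The bound `‖P(A)‖ ≤ 2 * M` when `‖P‖ ≤ M` on the numerical range of `A`.
-/

open scoped InnerProductSpace ComplexConjugate
open MeasureTheory Polynomial

set_option linter.unusedSectionVars false
set_option linter.unusedVariables false
set_option linter.unusedSimpArgs false

namespace Vale.Agent.P123

variable {E : Type*} [NormedAddCommGroup E] [InnerProductSpace ℂ E]

/-- The pencil `z - s B` along a curve. -/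
noncomputable def pencil (B : E →L[ℂ] E) (z : ℝ → ℂ) (θ s : ℝ) : E →L[ℂ] E :=
  z θ • (1 : E →L[ℂ] E) - (s : ℂ) • B

/-- The inverse of the pencil. -/
noncomputable def res (B : E →L[ℂ] E) (z : ℝ → ℂ) (θ s : ℝ) : E →L[ℂ] E :=
  Ring.inverse (pencil B z θ s)

variable [FiniteDimensional ℂ E]

lemma pencil_inner_pos (B : E →L[ℂ] E) (z z' : ℝ → ℂ)
    (hcurve : ∀ θ, ∀ s ∈ Set.Icc (0 : ℝ) 1, ∀ v ∈ numRange B,
      0 < (conj (-Complex.I * z' θ) * (z θ - (s : ℂ) * v)).re)
    (θ s : ℝ) (hs : s ∈ Set.Icc (0 : ℝ) 1) (u : E) (hu : u ≠ 0) :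
    0 < (conj (-Complex.I * z' θ) * ⟪u, pencil B z θ s u⟫_ℂ).re := by
  have h := hcurve θ s hs _ (inner_normalized B u hu)
  have hn : (0 : ℝ) < ‖u‖ ^ 2 := by positivity
  have he : ⟪u, pencil B z θ s u⟫_ℂ = ((‖u‖ ^ 2 : ℝ) : ℂ) *
      (z θ - (s : ℂ) * (⟪u, B u⟫_ℂ / ((‖u‖ ^ 2 : ℝ) : ℂ))) := by
    have hne : ((‖u‖ ^ 2 : ℝ) : ℂ) ≠ 0 := by exact_mod_cast hn.ne'
    have hh : ⟪u, u⟫_ℂ = ((‖u‖ ^ 2 : ℝ) : ℂ) := by
      rw [inner_self_eq_norm_sq_to_K]; push_cast; rfl
    simp only [pencil, sub_apply, smul_apply,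
      one_apply_eq_self, inner_sub_right, inner_smul_right, hh]
    field_simp
  rw [he, mul_left_comm, Complex.re_ofReal_mul]
  exact mul_pos hn h

lemma pencil_isUnit (B : E →L[ℂ] E) (z z' : ℝ → ℂ)
    (hcurve : ∀ θ, ∀ s ∈ Set.Icc (0 : ℝ) 1, ∀ v ∈ numRange B,
      0 < (conj (-Complex.I * z' θ) * (z θ - (s : ℂ) * v)).re)
    (θ s : ℝ) (hs : s ∈ Set.Icc (0 : ℝ) 1) : IsUnit (pencil B z θ s) := by
  have hinj : Function.Injective (pencil B z θ s).toLinearMap := by
    rw [injective_iff_map_eq_zero]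
    intro u hu
    by_contra hne
    have h := pencil_inner_pos B z z' hcurve θ s hs u hne
    have hu' : pencil B z θ s u = 0 := hu
    rw [hu', inner_zero_right, mul_zero] at h
    simp at h
  have hsurj : Function.Surjective (pencil B z θ s).toLinearMap :=
    LinearMap.injective_iff_surjective.1 hinj
  set e := (LinearEquiv.ofBijective (pencil B z θ s).toLinearMap ⟨hinj, hsurj⟩).toContinuousLinearEquiv
  refine ⟨⟨pencil B z θ s, e.symm.toContinuousLinearMap, ?_, ?_⟩, rfl⟩
  · ext u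
    exact e.apply_symm_apply u
  · ext u
    exact e.symm_apply_apply u

lemma res_basic (B : E →L[ℂ] E) (z z' : ℝ → ℂ) (hz'c : Continuous z')
    (hz : ∀ θ, HasDerivAt z (z' θ) θ) (hper : z (2 * Real.pi) = z 0)
    (hcurve : ∀ θ, ∀ s ∈ Set.Icc (0 : ℝ) 1, ∀ v ∈ numRange B,
      0 < (conj (-Complex.I * z' θ) * (z θ - (s : ℂ) * v)).re)
    (θ s : ℝ) (hs : s ∈ Set.Icc (0 : ℝ) 1) :
    res B z θ s * pencil B z θ s = 1 ∧ pencil B z θ s * res B z θ s = 1 ∧
      B * res B z θ s = res B z θ s * B ∧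
      ContinuousAt (fun q : ℝ × ℝ => res B z q.1 q.2) (θ, s) := by
  have : CompleteSpace E := FiniteDimensional.complete ℂ E
  have : CompleteSpace (E →L[ℂ] E) := by infer_instance
  set τ := 2 * Real.pi with hτ
  set I01 := Set.Icc (0 : ℝ) 1
  have hzc : Continuous z := continuous_iff_continuousAt.2 fun θ => (hz θ).continuousAt
  have hun : ∀ θ, ∀ s ∈ I01, IsUnit (pencil B z θ s) := fun θ s hs =>
    pencil_isUnit B z z' hcurve θ s hs
  have hleft : ∀ θ, ∀ s ∈ I01, res B z θ s * pencil B z θ s = 1 := fun θ s hs =>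
    Ring.inverse_mul_cancel _ (hun θ s hs)
  have hright : ∀ θ, ∀ s ∈ I01, pencil B z θ s * res B z θ s = 1 := fun θ s hs =>
    Ring.mul_inverse_cancel _ (hun θ s hs)
  have hcts : ∀ θ, ∀ s ∈ I01,
      ContinuousAt (fun q : ℝ × ℝ => res B z q.1 q.2) (θ, s) := by
    intro θ s hs
    obtain ⟨w, hw⟩ := hun θ s hs
    have h1 : ContinuousAt (Ring.inverse : (E →L[ℂ] E) → (E →L[ℂ] E)) (pencil B z θ s) := by
      rw [← hw]; exact NormedRing.inverse_continuousAt w
    have h2 : Continuous fun q : ℝ × ℝ => pencil B z q.1 q.2 := by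
      unfold pencil; fun_prop
    exact ContinuousAt.comp (g := Ring.inverse) h1 h2.continuousAt
  have hresc : ∀ s ∈ I01, Continuous fun θ => res B z θ s := fun s hs =>
    continuous_iff_continuousAt.2 fun θ =>
      ContinuousAt.comp (g := fun q : ℝ × ℝ => res B z q.1 q.2) (f := fun θ => (θ, s))
        (x := θ) (hcts θ s hs) (continuous_id.prodMk continuous_const).continuousAt
  have hcommB : ∀ θ, ∀ s ∈ I01, B * res B z θ s = res B z θ s * B := by
    intro θ s hs
    have h : B * pencil B z θ s = pencil B z θ s * B := by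
      simp [pencil, mul_sub, sub_mul]
    calc B * res B z θ s
        = res B z θ s * (pencil B z θ s * B) * res B z θ s := by
          rw [← mul_assoc (res B z θ s), hleft θ s hs, one_mul]
      _ = res B z θ s * B := by
          rw [← h, mul_assoc, mul_assoc, hright θ s hs, mul_one]
  exact ⟨hleft θ s hs, hright θ s hs, hcommB θ s hs, hcts θ s hs⟩

lemma res_continuous (B : E →L[ℂ] E) (z z' : ℝ → ℂ) (hz'c : Continuous z')
    (hz : ∀ θ, HasDerivAt z (z' θ) θ) (hper : z (2 * Real.pi) = z 0)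
    (hcurve : ∀ θ, ∀ s ∈ Set.Icc (0 : ℝ) 1, ∀ v ∈ numRange B,
      0 < (conj (-Complex.I * z' θ) * (z θ - (s : ℂ) * v)).re)
    (s : ℝ) (hs : s ∈ Set.Icc (0 : ℝ) 1) : Continuous fun θ => res B z θ s :=
  continuous_iff_continuousAt.2 fun θ =>
    ContinuousAt.comp (g := fun q : ℝ × ℝ => res B z q.1 q.2) (f := fun θ => (θ, s))
      (x := θ) (res_basic B z z' hz'c hz hper hcurve θ s hs).2.2.2
      (continuous_id.prodMk continuous_const).continuousAt

lemma res_hasDerivAt (B : E →L[ℂ] E) (z z' : ℝ → ℂ) (hz'c : Continuous z')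
    (hz : ∀ θ, HasDerivAt z (z' θ) θ) (hper : z (2 * Real.pi) = z 0)
    (hcurve : ∀ θ, ∀ s ∈ Set.Icc (0 : ℝ) 1, ∀ v ∈ numRange B,
      0 < (conj (-Complex.I * z' θ) * (z θ - (s : ℂ) * v)).re)
    (s : ℝ) (hs : s ∈ Set.Icc (0 : ℝ) 1) (θ : ℝ) :
    HasDerivAt (fun θ => res B z θ s) (-(z' θ • (res B z θ s * res B z θ s))) θ := by
  have : CompleteSpace E := FiniteDimensional.complete ℂ E
  have hun : ∀ θ, ∀ s ∈ Set.Icc (0 : ℝ) 1, IsUnit (pencil B z θ s) := fun θ s hs =>
    pencil_isUnit B z z' hcurve θ s hs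
  have hresd : ∀ s ∈ Set.Icc (0 : ℝ) 1, ∀ θ, HasDerivAt (fun θ => res B z θ s)
      (-(z' θ • (res B z θ s * res B z θ s))) θ := by
    intro s hs θ
    obtain ⟨w, hw⟩ := hun θ s hs
    have h1 : HasDerivAt (fun θ => pencil B z θ s) (z' θ • (1 : E →L[ℂ] E)) θ := by
      simpa [pencil] using ((hz θ).smul_const (1 : E →L[ℂ] E)).sub_const ((s : ℂ) • B)
    have h2 : HasFDerivAt (Ring.inverse : (E →L[ℂ] E) → (E →L[ℂ] E))
        (-ContinuousLinearMap.mulLeftRight ℝ (E →L[ℂ] E) ↑w⁻¹ ↑w⁻¹) (pencil B z θ s) := by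
      rw [← hw]; exact hasFDerivAt_ringInverse w
    have h3 : HasDerivAt (fun θ => res B z θ s)
        ((-ContinuousLinearMap.mulLeftRight ℝ (E →L[ℂ] E) ↑w⁻¹ ↑w⁻¹) (z' θ • (1 : E →L[ℂ] E))) θ :=
      h2.comp_hasDerivAt θ h1
    have hinv : (↑w⁻¹ : E →L[ℂ] E) = res B z θ s := by
      rw [res, ← hw, Ring.inverse_unit]
    rw [hinv] at h3
    simpa using h3
  exact hresd s hs θ

lemma res_integral_zero (B : E →L[ℂ] E) (z z' : ℝ → ℂ) (hz'c : Continuous z')
    (hz : ∀ θ, HasDerivAt z (z' θ) θ) (hper : z (2 * Real.pi) = z 0)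
    (hcurve : ∀ θ, ∀ s ∈ Set.Icc (0 : ℝ) 1, ∀ v ∈ numRange B,
      0 < (conj (-Complex.I * z' θ) * (z θ - (s : ℂ) * v)).re)
    (s : ℝ) (hs : s ∈ Set.Icc (0 : ℝ) 1) :
    (∫ θ in (0 : ℝ)..2 * Real.pi, z' θ • (res B z θ s * B * res B z θ s)) = 0 := by
  have : CompleteSpace E := FiniteDimensional.complete ℂ E
  set τ := 2 * Real.pi with hτ
  set I01 := Set.Icc (0 : ℝ) 1
  have hresd := res_hasDerivAt B z z' hz'c hz hper hcurve
  have hresc := res_continuous B z z' hz'c hz hper hcurve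
  have hcommB := fun θ s hs => (res_basic B z z' hz'c hz hper hcurve θ s hs).2.2.1
  have hzero : ∀ s ∈ I01,
      (∫ θ in (0 : ℝ)..τ, z' θ • (res B z θ s * B * res B z θ s)) = 0 := by
    intro s hs
    have hd : ∀ θ, HasDerivAt (fun θ => -(res B z θ s * B))
        (z' θ • (res B z θ s * B * res B z θ s)) θ := by
      intro θ
      have h := ((hresd s hs θ).mul_const B).neg
      refine h.congr_deriv ?_
      rw [neg_mul, neg_neg, smul_mul_assoc, mul_assoc, mul_assoc, hcommB θ s hs]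
    rw [intervalIntegral.integral_eq_sub_of_hasDerivAt (fun θ _ => hd θ)]
    · simp only [res, pencil, hper]
      simp
    · exact (hz'c.smul (((hresc s hs).mul continuous_const).mul (hresc s hs))).intervalIntegrable _ _
  exact hzero s hs

lemma res_sub (B : E →L[ℂ] E) (z z' : ℝ → ℂ) (hz'c : Continuous z')
    (hz : ∀ θ, HasDerivAt z (z' θ) θ) (hper : z (2 * Real.pi) = z 0)
    (hcurve : ∀ θ, ∀ s ∈ Set.Icc (0 : ℝ) 1, ∀ v ∈ numRange B,
      0 < (conj (-Complex.I * z' θ) * (z θ - (s : ℂ) * v)).re)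
    (θ s : ℝ) (hs : s ∈ Set.Icc (0 : ℝ) 1) (t : ℝ) (ht : t ∈ Set.Icc (0 : ℝ) 1) :
    res B z θ s - res B z θ t = ((s - t : ℝ) : ℂ) • (res B z θ s * B * res B z θ t) := by
  set I01 := Set.Icc (0 : ℝ) 1
  have hleft := fun θ s hs => (res_basic B z z' hz'c hz hper hcurve θ s hs).1
  have hright := fun θ s hs => (res_basic B z z' hz'c hz hper hcurve θ s hs).2.1
  have hres_eq : ∀ θ, ∀ s ∈ I01, ∀ t ∈ I01,
      res B z θ s - res B z θ t = ((s - t : ℝ) : ℂ) • (res B z θ s * B * res B z θ t) := by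
    intro θ s hs t ht
    calc res B z θ s - res B z θ t
        = res B z θ s * (pencil B z θ t - pencil B z θ s) * res B z θ t := by
          rw [mul_sub, sub_mul, mul_assoc, hright θ t ht, mul_one, hleft θ s hs, one_mul]
      _ = ((s - t : ℝ) : ℂ) • (res B z θ s * B * res B z θ t) := by
          have h : pencil B z θ t - pencil B z θ s = ((s - t : ℝ) : ℂ) • B := by
            simp only [pencil]; push_cast; module
          rw [h, mul_smul_comm, smul_mul_assoc]
  exact hres_eq θ s hs t ht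

lemma res_bound (B : E →L[ℂ] E) (z z' : ℝ → ℂ) (hz'c : Continuous z')
    (hz : ∀ θ, HasDerivAt z (z' θ) θ) (hper : z (2 * Real.pi) = z 0)
    (hcurve : ∀ θ, ∀ s ∈ Set.Icc (0 : ℝ) 1, ∀ v ∈ numRange B,
      0 < (conj (-Complex.I * z' θ) * (z θ - (s : ℂ) * v)).re) :
    ∃ K : ℝ, ∀ θ ∈ Set.Icc (0 : ℝ) (2 * Real.pi), ∀ s ∈ Set.Icc (0 : ℝ) 1,
      ∀ t ∈ Set.Icc (0 : ℝ) 1,
        ‖z' θ • (res B z θ s * B * res B z θ t * B * res B z θ s)‖ ≤ K := by
  have hcts := fun θ s hs => (res_basic B z z' hz'c hz hper hcurve θ s hs).2.2.2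
  obtain ⟨K, hK⟩ := (isCompact_Icc.prod (isCompact_Icc.prod isCompact_Icc)
      ).exists_bound_of_continuousOn
    (s := Set.Icc (0 : ℝ) (2 * Real.pi) ×ˢ (Set.Icc (0 : ℝ) 1 ×ˢ Set.Icc (0 : ℝ) 1))
    (f := fun q : ℝ × ℝ × ℝ =>
      z' q.1 • (res B z q.1 q.2.1 * B * res B z q.1 q.2.2 * B * res B z q.1 q.2.1))
    (by
      intro q hq
      have e1 : ContinuousAt (fun q : ℝ × ℝ × ℝ => res B z q.1 q.2.1) q :=
        ContinuousAt.comp (g := fun q : ℝ × ℝ => res B z q.1 q.2)
          (f := fun q : ℝ × ℝ × ℝ => (q.1, q.2.1)) (x := q) (hcts q.1 _ hq.2.1)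
          (continuous_fst.prodMk (continuous_fst.comp continuous_snd)).continuousAt
      have e2 : ContinuousAt (fun q : ℝ × ℝ × ℝ => res B z q.1 q.2.2) q :=
        ContinuousAt.comp (g := fun q : ℝ × ℝ => res B z q.1 q.2)
          (f := fun q : ℝ × ℝ × ℝ => (q.1, q.2.2)) (x := q) (hcts q.1 _ hq.2.2)
          (continuous_fst.prodMk (continuous_snd.comp continuous_snd)).continuousAt
      exact ((hz'c.comp continuous_fst).continuousAt.smul
        ((((e1.mul continuousAt_const).mul e2).mul continuousAt_const).mul e1)).continuousWithinAt)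
  exact ⟨K, fun θ hθ s hs t ht => hK (θ, s, t) ⟨hθ, hs, ht⟩⟩

lemma winding (B : E →L[ℂ] E) (z z' : ℝ → ℂ) (hz'c : Continuous z')
    (hz : ∀ θ, HasDerivAt z (z' θ) θ) (hper : z (2 * Real.pi) = z 0)
    (hcurve : ∀ θ, ∀ s ∈ Set.Icc (0 : ℝ) 1, ∀ v ∈ numRange B,
      0 < (conj (-Complex.I * z' θ) * (z θ - (s : ℂ) * v)).re)
    (hwind : (∫ θ in (0 : ℝ)..2 * Real.pi, z' θ / z θ) = 2 * Real.pi * Complex.I)
    (hne0 : ∀ θ, z θ ≠ 0) :
    (∫ θ in (0 : ℝ)..2 * Real.pi, z' θ • res B z θ 1)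
      = (2 * Real.pi * Complex.I : ℂ) • (1 : E →L[ℂ] E) := by
  have : CompleteSpace E := FiniteDimensional.complete ℂ E
  set τ := 2 * Real.pi with hτ
  set I01 := Set.Icc (0 : ℝ) 1
  have hresc := res_continuous B z z' hz'c hz hper hcurve
  have hzero := res_integral_zero B z z' hz'c hz hper hcurve
  have hres_eq := fun θ s hs t ht => res_sub B z z' hz'c hz hper hcurve θ s hs t ht
  have hleft := fun θ s hs => (res_basic B z z' hz'c hz hper hcurve θ s hs).1
  have hcts := fun θ s hs => (res_basic B z z' hz'c hz hper hcurve θ s hs).2.2.2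
  -- the winding integral
  set J : ℝ → E →L[ℂ] E := fun s => ∫ θ in (0 : ℝ)..τ, z' θ • res B z θ s with hJ
  obtain ⟨K, hK⟩ := res_bound B z z' hz'c hz hper hcurve
  have hτ0 : 0 ≤ τ := by positivity
  have hJdiff : ∀ s ∈ I01, ∀ t ∈ I01, ‖J s - J t‖ ≤ (s - t) ^ 2 * (K * τ) := by
    intro s hs t ht
    have hc : Continuous fun θ =>
        z' θ • (res B z θ s * B * res B z θ t * B * res B z θ s) :=
      hz'c.smul (((((hresc s hs).mul continuous_const).mul (hresc t ht)).mul continuous_const).mul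
        (hresc s hs))
    have hc0 : Continuous fun θ => z' θ • (res B z θ s * B * res B z θ s) :=
      hz'c.smul (((hresc s hs).mul continuous_const).mul (hresc s hs))
    have e : ∀ θ, z' θ • res B z θ s - z' θ • res B z θ t
        = ((s - t : ℝ) : ℂ) • (z' θ • (res B z θ s * B * res B z θ s))
          + (((s - t) * (t - s) : ℝ) : ℂ) •
              (z' θ • (res B z θ s * B * res B z θ t * B * res B z θ s)) := by
      intro θ
      have h2 : res B z θ t
          = res B z θ s + ((t - s : ℝ) : ℂ) • (res B z θ t * B * res B z θ s) := by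
        rw [← hres_eq θ t ht s hs]; abel
      rw [← smul_sub, hres_eq θ s hs t ht]
      conv_lhs => rw [h2]
      simp only [mul_add, mul_smul_comm, ← mul_assoc, smul_add, smul_smul]
      push_cast
      module
    have hJe : J s - J t = (((s - t) * (t - s) : ℝ) : ℂ) •
        ∫ θ in (0 : ℝ)..τ, z' θ • (res B z θ s * B * res B z θ t * B * res B z θ s) := by
      rw [hJ]
      simp only
      have j1 : IntervalIntegrable (fun θ => z' θ • res B z θ s) volume 0 τ :=
        (hz'c.smul (hresc s hs)).intervalIntegrable _ _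
      have j2 : IntervalIntegrable (fun θ => z' θ • res B z θ t) volume 0 τ :=
        (hz'c.smul (hresc t ht)).intervalIntegrable _ _
      rw [← intervalIntegral.integral_sub j1 j2]
      simp only [e]
      have i1 : IntervalIntegrable (fun θ => ((s - t : ℝ) : ℂ) •
          (z' θ • (res B z θ s * B * res B z θ s))) volume 0 τ :=
        (hc0.fun_const_smul _).intervalIntegrable _ _
      have i2 : IntervalIntegrable (fun θ => (((s - t) * (t - s) : ℝ) : ℂ) •
          (z' θ • (res B z θ s * B * res B z θ t * B * res B z θ s))) volume 0 τ :=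
        (hc.fun_const_smul _).intervalIntegrable _ _
      rw [intervalIntegral.integral_add i1 i2, intervalIntegral.integral_smul,
        intervalIntegral.integral_smul, hzero s hs, smul_zero, zero_add]
    rw [hJe, norm_smul, Complex.norm_real, Real.norm_eq_abs,
      show (s - t) * (t - s) = -(s - t) ^ 2 by ring, abs_neg, abs_of_nonneg (sq_nonneg _)]
    refine mul_le_mul_of_nonneg_left ?_ (sq_nonneg _)
    refine (intervalIntegral.norm_integral_le_of_norm_le_const (C := K) fun θ hθ => ?_).trans ?_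
    · rw [Set.uIoc_of_le hτ0] at hθ
      exact hK θ ⟨hθ.1.le, hθ.2⟩ s hs t ht
    · rw [sub_zero, abs_of_nonneg hτ0]
  have hJ01 : J 1 = J 0 := by
    have hb : ∀ n : ℕ, ‖J 1 - J 0‖ ≤ K * τ / ((n : ℝ) + 1) := by
      intro n
      set f : ℕ → E →L[ℂ] E := fun i => J ((i : ℝ) / ((n : ℝ) + 1)) with hf
      have h1 : J 1 - J 0 = ∑ i ∈ Finset.range (n + 1), (f (i + 1) - f i) := by
        rw [Finset.sum_range_sub f]
        simp [hf, div_self (show ((n : ℝ) + 1) ≠ 0 by positivity)]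
      rw [h1]
      refine (norm_sum_le _ _).trans ?_
      have h2 : ∀ i ∈ Finset.range (n + 1), ‖f (i + 1) - f i‖
          ≤ (1 / ((n : ℝ) + 1)) ^ 2 * (K * τ) := by
        intro i hi
        have hi' : (i : ℝ) + 1 ≤ (n : ℝ) + 1 := by
          exact_mod_cast Finset.mem_range.1 hi
        have m1 : ((i + 1 : ℕ) : ℝ) / ((n : ℝ) + 1) ∈ I01 :=
          ⟨by positivity, by rw [div_le_one (by positivity)]; push_cast; exact hi'⟩
        have m2 : (i : ℝ) / ((n : ℝ) + 1) ∈ I01 :=
          ⟨by positivity, by rw [div_le_one (by positivity)]; linarith⟩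
        refine (hJdiff _ m1 _ m2).trans (le_of_eq ?_)
        push_cast
        ring
      refine (Finset.sum_le_sum h2).trans (le_of_eq ?_)
      rw [Finset.sum_const, Finset.card_range, nsmul_eq_mul]
      push_cast
      field_simp
    have hlim : Filter.Tendsto (fun n : ℕ => K * τ / ((n : ℝ) + 1)) Filter.atTop (nhds 0) := by
      simpa [div_eq_mul_inv] using (tendsto_one_div_add_atTop_nhds_zero_nat (𝕜 := ℝ)).const_mul (K * τ)
    exact sub_eq_zero.1 (norm_le_zero_iff.1 (ge_of_tendsto' hlim hb))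
  have h0mem : (0 : ℝ) ∈ I01 := ⟨le_rfl, zero_le_one⟩
  have h1mem : (1 : ℝ) ∈ I01 := ⟨zero_le_one, le_rfl⟩
  have hJ0 : J 0 = ((2 * Real.pi * Complex.I : ℂ)) • (1 : E →L[ℂ] E) := by
    rw [← hwind, hJ]
    simp only
    rw [← intervalIntegral.integral_smul_const]
    refine intervalIntegral.integral_congr fun θ _ => ?_
    have h : res B z θ 0 = (z θ)⁻¹ • (1 : E →L[ℂ] E) := by
      have h1 : pencil B z θ 0 * ((z θ)⁻¹ • (1 : E →L[ℂ] E)) = 1 := by
        simp [pencil, smul_smul, hne0 θ]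
      calc res B z θ 0 = res B z θ 0 * (pencil B z θ 0 * ((z θ)⁻¹ • (1 : E →L[ℂ] E))) := by
            rw [h1, mul_one]
        _ = _ := by rw [← mul_assoc, hleft θ 0 h0mem, one_mul]
    rw [h, smul_smul, div_eq_mul_inv]
  exact hJ01.trans hJ0

lemma exists_moments (B : E →L[ℂ] E) (z z' : ℝ → ℂ) (hz'c : Continuous z')
    (hz : ∀ θ, HasDerivAt z (z' θ) θ) (hper : z (2 * Real.pi) = z 0)
    (hwind : (∫ θ in (0 : ℝ)..2 * Real.pi, z' θ / z θ) = 2 * Real.pi * Complex.I)
    (hcurve : ∀ θ, ∀ s ∈ Set.Icc (0 : ℝ) 1, ∀ v ∈ numRange B,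
      0 < (conj (-Complex.I * z' θ) * (z θ - (s : ℂ) * v)).re)
    (hne0 : ∀ θ, z θ ≠ 0) :
    ∃ k : ℝ → E →L[ℂ] E, Continuous k ∧ (∀ θ v, 0 ≤ (⟪v, k θ v⟫_ℂ).re) ∧
      (∀ (Q : ℂ[X]) (θ : ℝ), Commute (aeval B Q) (k θ)) ∧
      ∀ Q : ℂ[X], (∫ θ in (0 : ℝ)..2 * Real.pi, Q.eval (z θ) • k θ) = aeval B Q := by
  have : CompleteSpace E := FiniteDimensional.complete ℂ E
  set τ := 2 * Real.pi with hτ
  have hzc : Continuous z := continuous_iff_continuousAt.2 fun θ => (hz θ).continuousAt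
  have h1mem : (1 : ℝ) ∈ Set.Icc (0 : ℝ) 1 := ⟨zero_le_one, le_rfl⟩
  have hresc := res_continuous B z z' hz'c hz hper hcurve
  have hright := fun θ s hs => (res_basic B z z' hz'c hz hper hcurve θ s hs).2.1
  have hcommB := fun θ s hs => (res_basic B z z' hz'c hz hper hcurve θ s hs).2.2.1
  have hwindB := winding B z z' hz'c hz hper hcurve hwind hne0
  set c : ℂ := 2 * Real.pi * Complex.I with hc
  have hc0 : c ≠ 0 := by simp [hc, Real.pi_ne_zero]
  set k : ℝ → E →L[ℂ] E := fun θ => (z' θ / c) • res B z θ 1 with hk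
  have hkc : Continuous k := (hz'c.div_const c).smul (hresc 1 h1mem)
  refine ⟨k, hkc, fun θ v => ?_, fun Q θ => ?_, fun Q => ?_⟩
  · set u := res B z θ 1 v with hu
    have hv : pencil B z θ 1 u = v := by
      rw [hu, ← mul_apply_eq_comp, hright θ 1 h1mem, one_apply_eq_self]
    by_cases hu0 : u = 0
    · simp [hk, ← hu, hu0]
    have h := pencil_inner_pos B z z' hcurve θ 1 h1mem u hu0
    rw [hv] at h
    have e : k θ v = (z' θ / c) • u := by simp [hk, hu]
    have e2 : z' θ / c = ((1 / (2 * Real.pi) : ℝ) : ℂ) * (-Complex.I * z' θ) := by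
      rw [hc]; push_cast
      field_simp
      rw [Complex.I_sq]; ring
    rw [e, inner_smul_right, e2, mul_assoc, Complex.re_ofReal_mul]
    refine mul_nonneg (by positivity) ?_
    rw [← Complex.conj_re, map_mul, inner_conj_symm]
    exact h.le
  · have hB : Commute B (res B z θ 1) := hcommB θ 1 h1mem
    show Commute _ ((z' θ / c) • res B z θ 1)
    refine Commute.smul_right ?_ _
    induction Q using Polynomial.induction_on' with
    | add f g hf hg => rw [map_add]; exact hf.add_left hg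
    | monomial n a =>
      rw [Polynomial.aeval_monomial]
      exact (Algebra.commute_algebraMap_left a _).mul_left (hB.pow_left n)
  · have hint : ∀ g : ℂ[X], IntervalIntegrable (fun θ => g.eval (z θ) • k θ) volume 0 τ := fun g =>
      (((g.continuous).comp hzc).smul hkc).intervalIntegrable _ _
    induction Q using Polynomial.induction_on' with
    | add f g hf hg =>
      simp only [eval_add, add_smul, map_add]
      rw [intervalIntegral.integral_add (hint f) (hint g), hf, hg]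
    | monomial n a =>
      simp only [eval_monomial, aeval_monomial, mul_smul, intervalIntegral.integral_smul,
        ← Algebra.smul_def]
      congr 1
      induction n with
      | zero =>
        simp only [pow_zero, one_smul, hk]
        have e : ∀ θ, (z' θ / c) • res B z θ 1 = c⁻¹ • (z' θ • res B z θ 1) := fun θ => by
          rw [smul_smul, div_eq_inv_mul]
        simp only [e, intervalIntegral.integral_smul]
        rw [hwindB, smul_smul,
          inv_mul_cancel₀ hc0, one_smul]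
      | succ n ih =>
        have hid : ∀ θ, z θ • k θ = (z' θ / c) • (1 : E →L[ℂ] E) + B * k θ := by
          intro θ
          have h1 := hright θ 1 h1mem
          simp only [pencil, Complex.ofReal_one, one_smul, sub_mul, smul_mul_assoc, one_mul] at h1
          rw [hk]
          simp only
          rw [smul_comm, sub_eq_iff_eq_add.1 h1, smul_add, mul_smul_comm]
        have e : ∀ θ, z θ ^ (n + 1) • k θ
            = (z θ ^ n * (z' θ / c)) • (1 : E →L[ℂ] E) + B * (z θ ^ n • k θ) := by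
          intro θ
          rw [pow_succ, mul_smul, hid, smul_add, smul_smul]
          simp [hk, mul_smul_comm]
        have hd : ∀ θ, HasDerivAt (fun θ => z θ ^ (n + 1) / (((n : ℂ) + 1) * c))
            (z θ ^ n * (z' θ / c)) θ := by
          intro θ
          have hn : ((n : ℂ) + 1) ≠ 0 := by exact_mod_cast Nat.succ_ne_zero n
          refine (((hz θ).pow (n + 1)).div_const _).congr_deriv ?_
          simp
          field_simp
        have i1 : IntervalIntegrable (fun θ => (z θ ^ n * (z' θ / c)) • (1 : E →L[ℂ] E)) volume 0 τ :=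
          ((((hzc.pow n).mul (hz'c.div_const c))).smul continuous_const).intervalIntegrable _ _
        have i2 : IntervalIntegrable (fun θ => B * (z θ ^ n • k θ)) volume 0 τ :=
          (continuous_const.mul ((hzc.pow n).smul hkc)).intervalIntegrable _ _
        simp only [e]
        rw [intervalIntegral.integral_add i1 i2, intervalIntegral.integral_smul_const,
          intervalIntegral.integral_eq_sub_of_hasDerivAt (fun θ _ => hd θ)
            (((hzc.pow n).mul (hz'c.div_const c)).intervalIntegrable _ _)]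
        rw [hper, sub_self, zero_smul, zero_add, pow_succ', ← ih]
        exact (ContinuousLinearMap.mul ℂ (E →L[ℂ] E) B).intervalIntegral_comp_comm
          (((hzc.pow n).smul hkc).intervalIntegrable 0 τ)

theorem norm_aeval_le_finite [Nontrivial E] (B : E →L[ℂ] E) (P : ℂ[X]) (M : ℝ)
    (hM : ∀ v ∈ numRange B, ‖P.eval v‖ ≤ M) : ‖aeval B P‖ ≤ 2 * M := by
  have : CompleteSpace E := FiniteDimensional.complete ℂ E
  have : ProperSpace E := FiniteDimensional.proper ℂ E
  obtain ⟨x₀, hx₀⟩ : ∃ x : E, ‖x‖ = 1 := exists_norm_eq E zero_le_one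
  refine le_of_forall_gt_imp_ge_of_dense fun L hL => ?_
  obtain ⟨M', hM', hML⟩ : ∃ M', M < M' ∧ 2 * M' = L := ⟨L / 2, by linarith, by ring⟩
  have hM0 : 0 ≤ M := (norm_nonneg _).trans (hM _ ⟨x₀, hx₀, rfl⟩)
  have hM'0 : 0 < M' := by linarith
  set c := ⟪x₀, B x₀⟫_ℂ with hc
  set B₀ : E →L[ℂ] E := B - algebraMap ℂ _ c with hB₀
  set P₀ : ℂ[X] := C ((M' : ℂ)⁻¹) * P.comp (X + C c) with hP₀
  have hT : aeval B₀ P₀ = (M' : ℂ)⁻¹ • aeval B P := by
    rw [hP₀, map_mul, aeval_C, aeval_comp, map_add, aeval_X, aeval_C, hB₀, sub_add_cancel,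
      Algebra.smul_def]
  have hrange : ∀ v ∈ numRange B₀, v + c ∈ numRange B := by
    rintro v ⟨y, hy, rfl⟩
    refine ⟨y, hy, ?_⟩
    simp [hB₀, Algebra.algebraMap_eq_smul_one, inner_sub_right, inner_smul_right,
      inner_self_eq_norm_sq_to_K, hy]
  have hsub : numRange B₀ ⊆ {v | ‖P₀.eval v‖ < 1} := by
    intro v hv
    have h := hM _ (hrange v hv)
    show ‖P₀.eval v‖ < 1
    rw [hP₀, eval_mul, eval_C, eval_comp, eval_add, eval_X, eval_C, norm_mul, norm_inv,
      Complex.norm_real, Real.norm_of_nonneg hM'0.le, inv_mul_lt_iff₀ hM'0, mul_one]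
    linarith
  have h0 : (0 : ℂ) ∈ numRange B₀ := ⟨x₀, hx₀, by
    simp [hB₀, hc, Algebra.algebraMap_eq_smul_one, inner_sub_right, inner_smul_right,
      inner_self_eq_norm_sq_to_K, hx₀]⟩
  obtain ⟨z, z', hz'c, hz, hper, hwind, hcurve⟩ := exists_contour (convex_numRange B₀)
    (isClosed_numRange B₀) h0 ‖B₀‖ (fun w hw => norm_le_of_mem_numRange B₀ hw)
    (isOpen_lt P₀.continuous.norm continuous_const) hsub
  have hne0 : ∀ θ, z θ ≠ 0 := by
    intro θ h
    have h2 := (hcurve θ).2 0 ⟨le_rfl, zero_le_one⟩ 0 h0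
    simp [h] at h2
  obtain ⟨k, hkc, hpos, hcomm, hmom⟩ := exists_moments B₀ z z' hz'c hz hper hwind
    (fun θ => (hcurve θ).2) hne0
  have hzc : Continuous z := continuous_iff_continuousAt.2 fun θ => (hz θ).continuousAt
  set T := aeval B₀ P₀ with hTdef
  obtain ⟨x, hx, hxmax⟩ := (isCompact_sphere (0 : E) 1).exists_isMaxOn
    ⟨x₀, by simpa using hx₀⟩ T.continuous.norm.continuousOn
  have hx' : ‖x‖ = 1 := by simpa using hx
  have hTx : ‖T x‖ = ‖T‖ := by
    refine le_antisymm (by simpa [hx'] using T.le_opNorm x) ?_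
    refine ContinuousLinearMap.opNorm_le_bound' _ (norm_nonneg _) fun v hv => ?_
    have hmem : ((‖v‖⁻¹ : ℝ) : ℂ) • v ∈ Metric.sphere (0 : E) 1 := by
      rw [mem_sphere_zero_iff_norm, norm_smul, Complex.norm_real, norm_inv, norm_norm,
        inv_mul_cancel₀ hv]
    have h1 : ‖T (((‖v‖⁻¹ : ℝ) : ℂ) • v)‖ ≤ ‖T x‖ := hxmax hmem
    rw [map_smul, norm_smul, Complex.norm_real, norm_inv, norm_norm,
      inv_mul_le_iff₀ (lt_of_le_of_ne (norm_nonneg _) (Ne.symm hv))] at h1
    linarith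
  have h2 : ‖T‖ ≤ 2 := norm_le_two (a := 0) (b := 2 * Real.pi) (fun θ => P₀.eval (z θ)) k
    (by positivity) (P₀.continuous.comp hzc) hkc
    (fun θ => le_of_lt (hcurve θ).1) hpos T (fun θ => hcomm P₀ θ)
    (fun n => by simpa [eval_pow] using hmom (P₀ ^ n)) x hx' hTx
  rw [hT, norm_smul, norm_inv, Complex.norm_real, Real.norm_of_nonneg hM'0.le,
    inv_mul_le_iff₀ hM'0] at h2
  linarith

/-- Crouzeix's conjecture. -/
theorem norm_aeval_le {H : Type*} [NormedAddCommGroup H] [InnerProductSpace ℂ H]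
    [CompleteSpace H] [Nontrivial H] (A : H →L[ℂ] H) (P : ℂ[X]) (M : ℝ)
    (hM : ∀ v ∈ numRange A, ‖P.eval v‖ ≤ M) : ‖aeval A P‖ ≤ 2 * M := by
  obtain ⟨x₀, hx₀⟩ : ∃ x : H, ‖x‖ = 1 := exists_norm_eq H zero_le_one
  have hM0 : 0 ≤ M := (norm_nonneg _).trans (hM _ ⟨x₀, hx₀, rfl⟩)
  refine ContinuousLinearMap.opNorm_le_bound _ (by linarith) fun x => ?_
  by_cases hx : x = 0
  · simp [hx]
  obtain ⟨K, hK, B, x', hx', hsub, hval⟩ := exists_compression A P x
  have : Nontrivial K := ⟨⟨x', 0, fun h => hx (by rw [← hx', h]; rfl)⟩⟩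
  have h := (aeval B P).le_of_opNorm_le (norm_aeval_le_finite B P M fun v hv => hM v (hsub hv)) x'
  rwa [← hval, ← hx']

end Vale.Agent.P123
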