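import Mathlib
import Vale.Agent.P123.Operator

/-!
Supremum form of the bound, and the standard two-dimensional example for sharpness.
-/

open scoped InnerProductSpace ComplexConjugate
open Polynomial

namespace Vale.Agent.P123

theorem norm_aeval_le_sSup {H : Type*} [NormedAddCommGroup H] [InnerProductSpace ℂ H]
    [CompleteSpace H] [Nontrivial H] (A : H →L[ℂ] H) (P : ℂ[X]) :
    ‖aeval A P‖ ≤ 2 * sSup {r : ℝ | ∃ x : H, ‖x‖ = 1 ∧ r = ‖P.eval ⟪x, A x⟫_ℂ‖} := by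
  refine norm_aeval_le A P _ fun v hv => ?_
  obtain ⟨x, hx, rfl⟩ := hv
  refine le_csSup ?_ ⟨x, hx, rfl⟩
  obtain ⟨b, hb⟩ := (isCompact_closedBall (0 : ℂ) ‖A‖).exists_bound_of_continuousOn
    P.continuous.continuousOn
  refine ⟨b, ?_⟩
  rintro r ⟨y, hy, rfl⟩
  exact hb _ (mem_closedBall_zero_iff.2 (norm_le_of_mem_numRange A ⟨y, hy, rfl⟩))

/-- The nilpotent two-by-two shift. -/
noncomputable def shift : EuclideanSpace ℂ (Fin 2) →L[ℂ] EuclideanSpace ℂ (Fin 2) :=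
  (innerSL ℂ (EuclideanSpace.single (1 : Fin 2) (1 : ℂ))).smulRight
    (EuclideanSpace.single (0 : Fin 2) (1 : ℂ))

theorem two_le_of_bound (C : ℝ)
    (hC : ∀ (H : Type) [NormedAddCommGroup H] [InnerProductSpace ℂ H] [CompleteSpace H]
        [Nontrivial H] (A : H →L[ℂ] H) (P : ℂ[X]),
        ‖aeval A P‖ ≤ C * sSup {r : ℝ | ∃ x : H, ‖x‖ = 1 ∧ r = ‖P.eval ⟪x, A x⟫_ℂ‖}) :
    2 ≤ C := by
  set e₀ : EuclideanSpace ℂ (Fin 2) := EuclideanSpace.single (0 : Fin 2) (1 : ℂ) with he₀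
  set e₁ : EuclideanSpace ℂ (Fin 2) := EuclideanSpace.single (1 : Fin 2) (1 : ℂ) with he₁
  have : Nontrivial (EuclideanSpace ℂ (Fin 2)) := ⟨⟨e₀, 0, fun h => by
    have := congrArg norm h
    simp [he₀] at this⟩⟩
  have h := hC (EuclideanSpace ℂ (Fin 2)) shift X
  simp only [aeval_X, eval_X] at h
  have h1 : 1 ≤ ‖shift‖ := by
    have := shift.le_opNorm e₁
    simpa [shift, he₁] using this
  have h2 : ∀ x : EuclideanSpace ℂ (Fin 2), ‖x‖ = 1 → ‖⟪x, shift x⟫_ℂ‖ ≤ 1 / 2 := by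
    intro x hx
    have e : ‖⟪x, shift x⟫_ℂ‖ = ‖x 1‖ * ‖x 0‖ := by
      simp [shift, EuclideanSpace.inner_single_left, EuclideanSpace.inner_single_right]
    have h3 : ‖x 0‖ ^ 2 + ‖x 1‖ ^ 2 = 1 := by
      have h4 := EuclideanSpace.norm_sq_eq x
      rw [hx, Fin.sum_univ_two] at h4
      linarith
    rw [e]
    nlinarith [sq_nonneg (‖x 0‖ - ‖x 1‖)]
  have hs : sSup {r : ℝ | ∃ x : EuclideanSpace ℂ (Fin 2), ‖x‖ = 1 ∧ r = ‖⟪x, shift x⟫_ℂ‖}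
      ≤ 1 / 2 :=
    csSup_le ⟨_, e₀, by simp [he₀], rfl⟩ (by rintro r ⟨x, hx, rfl⟩; exact h2 x hx)
  have hnn : 0 ≤ sSup {r : ℝ | ∃ x : EuclideanSpace ℂ (Fin 2), ‖x‖ = 1 ∧ r = ‖⟪x, shift x⟫_ℂ‖} :=
    Real.sSup_nonneg (by rintro r ⟨x, -, rfl⟩; exact norm_nonneg _)
  by_contra hlt
  push Not at hlt
  rcases le_total C 0 with hC0 | hC0
  · nlinarith [mul_nonpos_of_nonpos_of_nonneg hC0 hnn]
  · nlinarith [mul_le_mul_of_nonneg_left hs hC0]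

end Vale.Agent.P123
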